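import Vale.Agent.P301.H897.Inst

/-!
# Limits of smooth `L`-valued `(p,0)`-forms with `∂̄ → 0`
-/

open scoped Manifold ContDiff ComplexOrder Topology Matrix Kronecker ENNReal
open Filter Metric Set MeasureTheory
open Vale.Agent.P272.K Vale.Agent.P272.K.C2 Vale.Agent.P299.H954 Vale.Agent.P299.IX
open Vale.Agent.P301.H599 Vale.Agent.P301.H862

noncomputable section

namespace Vale.Agent.P301.H897

variable {d : ℕ} {α : Type*} {X : Type} [TopologicalSpace X] [ChartedSpace (Cm d) X] {ι : Type}
  {w : Chart d X → Cm d → Matrix (Fin d) (Fin d) ℂ} {L : LineBundle d X ι} {ρ : ι → X → ℝ}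

/-- `u` is a holomorphic section of `Λ^{*,0} ⊗ L` -/
structure IsHol (L : LineBundle d X ι) (u : Fam d X ι) : Prop where
  holo : ∀ i e x, At e x → x ∈ L.U i → ∀ I, AnalyticAt ℂ (fun z => u i e z I) (e x)
  change : ∀ i j e e' x, At e x → At e' x → x ∈ L.U i → x ∈ L.U j →
    u i e (e x) = (L.g i j x • lam (jacM e e' x)ᵀ) *ᵥ u j e' (e' x)

/-- the transition matrices of `Λ^{*,0}` -/
def LamF (e e' : Chart d X) (x : X) : Matrix (FI d) (FI d) ℂ := lam (jacM e e' x)ᵀ

lemma IsHol.isSec {u : Fam d X ι} (hu : IsHol L u) : IsSec L u where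
  smooth i e x hx hi I := ((hu.holo i e x hx hi I).contDiffAt (n := ∞)).restrict_scalars ℝ
  change := hu.change

lemma g_self (L : LineBundle d X ι) {i : ι} {x : X} (hi : x ∈ L.U i) : L.g i i x = 1 := by
  have h1 := L.cocycle i i i x hi hi hi
  have h2 := L.ne_zero i i x hi hi
  exact mul_right_cancel₀ h2 (by rw [h1, one_mul])

lemma IsSec.sub {g h : Fam d X ι} (hg : IsSec L g) (hh : IsSec L h) :
    IsSec L (fun i e z => g i e z - h i e z) where
  smooth i e x hx hi I := (hg.smooth i e x hx hi I).sub (hh.smooth i e x hx hi I)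
  change i j e e' x hx hx' hi hj := by
    rw [hg.change i j e e' x hx hx' hi hj, hh.change i j e e' x hx hx' hi hj, Matrix.mulVec_sub]

lemma ofHol {u : Fam d X ι} (hu : IsHolSec L LamF 1 u) : IsHol L u where
  holo := hu.holo
  change i j e e' x hx hx' hi hj := by
    rw [hu.chL i j e x hx hi hj, hu.chV j e e' x hx hx' hj, pow_one, Matrix.smul_mulVec]
    rfl

variable [IsManifold 𝓘(ℂ, Cm d) ω X]

lemma toSm {g : Fam d X ι} (hg : IsSec L g) : IsSmSec L LamF 1 g where
  smooth i e x hx hi I := hg.smooth i e x hx hi I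
  chL i j e x hx hi hj := by
    rw [hg.change i j e e x hx hx hi hj, jacM_self hx, Matrix.transpose_one, lam_one, pow_one,
      Matrix.smul_mulVec, Matrix.one_mulVec]
  chV i e e' x hx hx' hi := by
    rw [hg.change i i e e' x hx hx' hi hi, g_self L hi, one_smul]
    rfl

lemma cont_LamF (L : LineBundle d X ι) (e e' : Chart d X) (x : X) (hx : At e x) (hx' : At e' x)
    (a b : FI d) : ContinuousAt (fun z => LamF e e' (e.symm z) a b) (e x) := by
  have h1 := MC_lam (trAt hx hx' (mem_ix L x) (mem_ix L x)).MC_J a b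
  refine h1.continuousAt.congr ?_
  filter_upwards [nhds_on hx hx' (mem_ix L x) (mem_ix L x)] with z hz
  have h2 : jacM e e' (e.symm z) = jmat (cc e e') z := by
    rw [jacM_eq, e.right_inv hz.1]; rfl
  simp only [LamF]
  rw [h2]

variable [T2Space X] [CompactSpace X]

/-- **Limits of `L`-valued forms.** -/
theorem lim_main (hk : IsKahler w) (hρ : IsMetric L ρ) (l : Ultrafilter α) {v : α → X → ℝ}
    (hv : ∀ n, Smooth (d := d) (v n)) {C₁ : ℝ} (hC : ∀ n x, v n x ≤ C₁)
    {g : α → Fam d X ι} (hg : ∀ n, IsSec L (g n)) {M : ℝ}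
    (hM : ∀ n, (ip L (fun i x => ρ i x + v n x) w (g n) (g n)).re ≤ M)
    (hgrad : Tendsto (fun n => (intC L (gradX (fun i x => ρ i x + v n x) w (g n) (g n))).re) l
      (𝓝 0)) :
    ∃ u : Fam d X ι, IsHol L u ∧
      (∀ e ∈ atlas (Cm d) X, ∀ i, ∀ K : Set (Cm d), IsCompact K → K ⊆ Dom L i e →
        LConv (l : Filter α) (fun n => g n i e) (u i e) K) ∧
      (∀ I : FI d, (∀ n i e x, At e x → x ∈ L.U i → g n i e (e x) I = 0) →
        ∀ i e x, At e x → x ∈ L.U i → u i e (e x) I = 0) ∧
      ((∀ e ∈ atlas (Cm d) X, ∀ K : Set (Cm d), IsCompact K → K ⊆ e.target →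
        ∃ B : ℝ≥0∞, B ≠ ⊤ ∧ ∀ n,
          ∫⁻ z in K, ENNReal.ofReal (Real.exp (-((2 * d + 1) * v n (e.symm z)))) ≤ B) →
        Tendsto (fun n => (ip L (fun i x => ρ i x + v n x) w
          (fun i e z => g n i e z - u i e z) (fun i e z => g n i e z - u i e z)).re) l (𝓝 0)) := by
  classical
  have hρv : ∀ n, IsMetric L (fun i x => ρ i x + v n x) := fun n => IsMetric.add hρ (hv n)
  have hball : ∀ i e x, At e x → x ∈ L.U i → ∃ r : ℝ, 0 < r ∧ closedBall (e x) r ⊆ Dom L i e :=
    fun i e x hx hi => Metric.nhds_basis_closedBall.mem_iff.1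
      ((isOpen_Dom L i e).mem_nhds (mem_Dom hx hi))
  -- the local bounds
  have hbd : LocBdd (l : Filter α) L g := by
    intro i e x hx hi
    obtain ⟨r, hr, hsub⟩ := hball i e x hx hi
    obtain ⟨c, C, hc, -, hcC⟩ := exists_norm_bounds hk hρ hx.1 (isCompact_closedBall (e x) r) hsub
    set κ : ℝ := (c * Real.exp (-C₁))⁻¹ with hκ
    have hκ0 : 0 < κ := by positivity
    have hss : closedBall (e x) (r / 2) ⊆ closedBall (e x) r :=
      closedBall_subset_closedBall (by linarith)
    have hexp : ∀ n y, c * Real.exp (-C₁) ≤ c * Real.exp (-v n y) := fun n y =>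
      mul_le_mul_of_nonneg_left (Real.exp_le_exp.2 (neg_le_neg (hC n y))) hc.le
    refine ⟨r / 2, by positivity, hss.trans hsub,
      ⟨ENNReal.ofReal κ * ENNReal.ofReal M, by finiteness, Eventually.of_forall fun n a => ?_⟩,
      fun a j => ?_⟩
    · calc ∫⁻ z in closedBall (e x) (r / 2), ‖g n i e z a‖ₑ ^ 2
          ≤ ∫⁻ z in closedBall (e x) (r / 2), ENNReal.ofReal κ *
              ENNReal.ofReal (hX (fun i x => ρ i x + v n x) w (g n) (g n) i e z).re := by
            refine setLIntegral_mono_ae' measurableSet_closedBall (ae_of_all _ fun z hz => ?_)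
            have h1 := ((hcC z (hss hz) (v n)).1 (g n i e z)).1
            rw [← ENNReal.ofReal_mul hκ0.le, ← ofReal_norm, ← ENNReal.ofReal_pow (norm_nonneg _)]
            refine ENNReal.ofReal_le_ofReal ?_
            have h2 : ‖g n i e z a‖ ^ 2 ≤ ∑ I, ‖g n i e z I‖ ^ 2 :=
              Finset.single_le_sum (f := fun I => ‖g n i e z I‖ ^ 2) (fun _ _ => by positivity)
                (Finset.mem_univ a)
            rw [hκ, inv_mul_eq_div, le_div_iff₀ (by positivity)]
            calc ‖g n i e z a‖ ^ 2 * (c * Real.exp (-C₁))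
                ≤ (∑ I, ‖g n i e z I‖ ^ 2) * (c * Real.exp (-v n (e.symm z))) := by
                  gcongr; exact hC n _
              _ = c * (Real.exp (-v n (e.symm z)) * ∑ I, ‖g n i e z I‖ ^ 2) := by ring
              _ ≤ _ := h1
        _ = ENNReal.ofReal κ * ∫⁻ z in closedBall (e x) (r / 2),
              ENNReal.ofReal (hX (fun i x => ρ i x + v n x) w (g n) (g n) i e z).re :=
            lintegral_const_mul' _ _ ENNReal.ofReal_ne_top
        _ ≤ ENNReal.ofReal κ * ENNReal.ofReal M := by
            gcongr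
            refine (ball_le ((hg n).isDens_hX (hρv n) hk (hg n))
              (fun i e x hx _ => hX_nonneg hk (g n) hx) hx.1 hr hsub).trans ?_
            exact ENNReal.ofReal_le_ofReal (hM n)
    · have h0 : ∀ n, ∫⁻ z in closedBall (e x) (r / 2), ‖dzb j (fun y => g n i e y a) z‖ₑ ^ 2 ≤
          ENNReal.ofReal κ * ENNReal.ofReal
            (intC L (gradX (fun i x => ρ i x + v n x) w (g n) (g n))).re := by
        intro n
        calc ∫⁻ z in closedBall (e x) (r / 2), ‖dzb j (fun y => g n i e y a) z‖ₑ ^ 2
            ≤ ∫⁻ z in closedBall (e x) (r / 2), ENNReal.ofReal κ *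
                ENNReal.ofReal (gradX (fun i x => ρ i x + v n x) w (g n) (g n) i e z).re := by
              refine setLIntegral_mono_ae' measurableSet_closedBall (ae_of_all _ fun z hz => ?_)
              have h1 := (hcC z (hss hz) (v n)).2 (fun l => DVb l (g n i e) z)
              rw [← ENNReal.ofReal_mul hκ0.le, ← ofReal_norm, ← ENNReal.ofReal_pow (norm_nonneg _)]
              refine ENNReal.ofReal_le_ofReal ?_
              have h2 : ‖DVb j (g n i e) z a‖ ^ 2 ≤ ∑ l, ∑ I, ‖DVb l (g n i e) z I‖ ^ 2 := by
                refine (Finset.single_le_sum (f := fun I => ‖DVb j (g n i e) z I‖ ^ 2)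
                  (fun _ _ => by positivity) (Finset.mem_univ a)).trans ?_
                exact Finset.single_le_sum (f := fun l => ∑ I, ‖DVb l (g n i e) z I‖ ^ 2)
                  (fun _ _ => by positivity) (Finset.mem_univ j)
              rw [hκ, inv_mul_eq_div, le_div_iff₀ (by positivity)]
              calc ‖dzb j (fun y => g n i e y a) z‖ ^ 2 * (c * Real.exp (-C₁))
                  ≤ (∑ l, ∑ I, ‖DVb l (g n i e) z I‖ ^ 2) *
                      (c * Real.exp (-v n (e.symm z))) := by
                    gcongr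
                    · exact h2
                    · exact hC n _
                _ = c * (Real.exp (-v n (e.symm z)) *
                      ∑ l, ∑ I, ‖DVb l (g n i e) z I‖ ^ 2) := by ring
                _ ≤ _ := h1
          _ = ENNReal.ofReal κ * ∫⁻ z in closedBall (e x) (r / 2),
                ENNReal.ofReal (gradX (fun i x => ρ i x + v n x) w (g n) (g n) i e z).re :=
              lintegral_const_mul' _ _ ENNReal.ofReal_ne_top
          _ ≤ _ := by
              gcongr
              exact ball_le ((hg n).isDens_gradX (hρv n) hk (hg n))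
                (fun i e x hx _ => gradX_nonneg hk (g n) hx) hx.1 hr hsub
      have h1 : Tendsto (fun n => ENNReal.ofReal κ * ENNReal.ofReal
          (intC L (gradX (fun i x => ρ i x + v n x) w (g n) (g n))).re) l (𝓝 0) := by
        have h2 := (ENNReal.continuous_ofReal.tendsto 0).comp hgrad
        rw [ENNReal.ofReal_zero] at h2
        have h3 := ENNReal.Tendsto.const_mul (a := ENNReal.ofReal κ) h2
          (Or.inr ENNReal.ofReal_ne_top)
        rw [mul_zero] at h3
        exact h3
      exact tendsto_of_tendsto_of_tendsto_of_le_of_le tendsto_const_nhds h1 (fun _ => zero_le) h0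
  obtain ⟨u, hu, hloc⟩ := lim_section (L := L) (Lam := LamF) (m := 1) l
    (fun e e' x hx hx' a b => cont_LamF L e e' x hx hx' a b) (fun n => toSm (hg n)) hbd
  have huH : IsHol L u := ofHol hu
  have hcpt : ∀ e ∈ atlas (Cm d) X, ∀ i, ∀ K : Set (Cm d), IsCompact K → K ⊆ Dom L i e →
        LConv (l : Filter α) (fun n => g n i e) (u i e) K := by
    intro e he i K hK hKD
    refine LConv.of_local hK fun z hz => ?_
    obtain ⟨r, hr, -, hc⟩ := hloc i e (e.symm z) ⟨he, e.map_target (hKD hz).1⟩ (hKD hz).2
    rw [e.right_inv (hKD hz).1] at hc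
    exact ⟨r, hr, hc⟩
  refine ⟨u, huH, hcpt, ?_, ?_⟩
  · intro I hI i e x hx hi
    obtain ⟨r, hr, hsub, hc⟩ := hloc i e x hx hi
    have hz : ∀ n, ∀ z ∈ closedBall (e x) r, g n i e z I = 0 := by
      intro n z hz
      have := hI n i e (e.symm z) ⟨hx.1, e.map_target (hsub hz).1⟩ (hsub hz).2
      rwa [e.right_inv (hsub hz).1] at this
    have huc : ∀ z ∈ closedBall (e x) r, ContinuousAt (fun z => u i e z I) z := by
      intro z hz
      have := huH.holo i e (e.symm z) ⟨hx.1, e.map_target (hsub hz).1⟩ (hsub hz).2 I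
      rw [e.right_inv (hsub hz).1] at this
      exact this.continuousAt
    have hgc : ∀ n, ∀ z ∈ closedBall (e x) r, ContinuousAt (fun z => g n i e z I) z := by
      intro n z hz
      have := (hg n).smooth i e (e.symm z) ⟨hx.1, e.map_target (hsub hz).1⟩ (hsub hz).2 I
      rw [e.right_inv (hsub hz).1] at this
      exact this.continuousAt
    refine eq_of_lim (l := (l : Filter α)) (S := closedBall (e x) r)
      (closedBall_mem_nhds (e x) hr) (f := fun n z => g n i e z I) (G := fun z => u i e z I)
      (H := fun _ => 0)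
      (fun n => aemeas_of_cont measurableSet_closedBall fun z hz =>
        ((hgc n z hz).sub (huc z hz)).continuousWithinAt)
      (huc _ (mem_closedBall_self hr.le)) continuousAt_const
      (hc.one (isCompact_closedBall _ _).measure_ne_top subset_rfl I) ?_
    refine tendsto_const_nhds.congr fun n => ?_
    refine (setLIntegral_congr_fun (g := fun _ => 0) measurableSet_closedBall fun z hz' => ?_).trans
      (by simp) |>.symm
    show ‖g n i e z I - 0‖ₑ ^ 2 = 0
    rw [hz n z hz']
    simp
  · intro hexp
    have hsec : ∀ n, IsSec L (fun i e z => g n i e z - u i e z) := fun n =>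
      IsSec.sub (hg n) huH.isSec
    have hdens := fun n => (hsec n).isDens_hX (hρv n) hk (hsec n)
    have h1 := intX_tendsto_zero (l := (l : Filter α))
      (D := fun n => reD L (hX (fun i x => ρ i x + v n x) w (fun i e z => g n i e z - u i e z)
        (fun i e z => g n i e z - u i e z)))
      (fun n => (hdens n).isDensity_re)
      (fun n e x hx => by
        rw [reD_eq (hdens n) hx (mem_ix L x)]
        exact hX_nonneg hk _ hx) ?_
    · refine h1.congr fun n => ?_
      rw [ip, intC_re]
    · intro e x hx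
      set i := ix L x with hi'
      have hi : x ∈ L.U i := mem_ix L x
      obtain ⟨r, hr, hsub⟩ := hball i e x hx hi
      refine ⟨r, hr, ?_⟩
      set S := closedBall (e x) r with hS
      have hSc : IsCompact S := isCompact_closedBall _ _
      obtain ⟨c, C, -, hC0, hcC⟩ := exists_norm_bounds hk hρ hx.1 hSc hsub
      obtain ⟨B, hB, hBn⟩ := hexp e hx.1 S hSc fun z hz => (hsub hz).1
      set W : α → Cm d → ℝ≥0∞ := fun n z => ENNReal.ofReal (Real.exp (-v n (e.symm z))) with hW
      have hWm : ∀ n, AEMeasurable (W n) (volume.restrict S) := by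
        intro n
        have hc1 : ContinuousOn (fun z => Real.exp (-v n (e.symm z))) S := by
          intro z hz
          have h2 := hv n e (e.symm z) ⟨hx.1, e.map_target (hsub hz).1⟩
          rw [e.right_inv (hsub hz).1] at h2
          exact (Real.continuous_exp.continuousAt.comp h2.continuousAt.neg).continuousWithinAt
        exact (hc1.aemeasurable hSc.measurableSet).ennreal_ofReal
      have hWp : ∀ n z, W n z ^ (2 * d + 1) =
          ENNReal.ofReal (Real.exp (-((2 * d + 1) * v n (e.symm z)))) := by
        intro n z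
        rw [hW, ← ENNReal.ofReal_pow (Real.exp_pos _).le, ← Real.exp_nat_mul]
        congr 2
        push_cast
        ring
      have h2 := hcpt e hx.1 i S hSc hsub W hWm B hB
        (Eventually.of_forall fun n => by simp_rw [hWp]; exact hBn n)
      have h3 : ∀ n, ∫⁻ z in S, ENNReal.ofReal (reD L (hX (fun i x => ρ i x + v n x) w
          (fun i e z => g n i e z - u i e z) (fun i e z => g n i e z - u i e z)) e z) ≤
          ENNReal.ofReal C * ∑ I, ∫⁻ z in S, W n z * ‖g n i e z I - u i e z I‖ₑ ^ 2 := by
        intro n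
        have hgm : ∀ I, AEMeasurable (fun z => W n z * ‖g n i e z I - u i e z I‖ₑ ^ 2)
            (volume.restrict S) := by
          intro I
          refine (hWm n).mul (aemeas_of_cont hSc.measurableSet fun z hz => ?_)
          have h4 := (hsec n).smooth i e (e.symm z) ⟨hx.1, e.map_target (hsub hz).1⟩ (hsub hz).2 I
          rw [e.right_inv (hsub hz).1] at h4
          exact h4.continuousAt.continuousWithinAt
        rw [← lintegral_finsetSum' _ fun I _ => hgm I,
          ← lintegral_const_mul' _ _ ENNReal.ofReal_ne_top]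
        refine setLIntegral_mono_ae' hSc.measurableSet (ae_of_all _ fun z hz => ?_)
        have h4 := reD_eq (hdens n) (x := e.symm z) (e := e) (i := i)
          ⟨hx.1, e.map_target (hsub hz).1⟩ (hsub hz).2
        rw [e.right_inv (hsub hz).1] at h4
        rw [h4]
        have h5 := ((hcC z hz (v n)).1 (g n i e z - u i e z)).2
        calc ENNReal.ofReal (hX (fun i x => ρ i x + v n x) w (fun i e z => g n i e z - u i e z)
              (fun i e z => g n i e z - u i e z) i e z).re
            ≤ ENNReal.ofReal (C * (Real.exp (-v n (e.symm z)) *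
                ∑ I, ‖(g n i e z - u i e z) I‖ ^ 2)) := ENNReal.ofReal_le_ofReal h5
          _ = ENNReal.ofReal C * ∑ I, W n z * ‖g n i e z I - u i e z I‖ₑ ^ 2 := by
              rw [ENNReal.ofReal_mul hC0, ENNReal.ofReal_mul (Real.exp_pos _).le,
                ENNReal.ofReal_sum_of_nonneg (fun _ _ => by positivity), Finset.mul_sum]
              congr 1
              refine Finset.sum_congr rfl fun I _ => ?_
              rw [ENNReal.ofReal_pow (norm_nonneg _), ofReal_norm, Pi.sub_apply]
      have h4 : Tendsto (fun n => ENNReal.ofReal C *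
          ∑ I, ∫⁻ z in S, W n z * ‖g n i e z I - u i e z I‖ₑ ^ 2) l (𝓝 0) := by
        have h5 := ENNReal.Tendsto.const_mul (a := ENNReal.ofReal C)
          (tendsto_finsetSum (Finset.univ) fun I _ => h2 I) (Or.inr ENNReal.ofReal_ne_top)
        simpa using h5
      exact tendsto_of_tendsto_of_tendsto_of_le_of_le tendsto_const_nhds h4 (fun _ => zero_le) h3

end Vale.Agent.P301.H897
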