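import Vale.Agent.P301.H897.Sec

/-!
# From local to global convergence
-/

open scoped Manifold ContDiff Topology ComplexConjugate ENNReal
open MeasureTheory Set Filter Metric

noncomputable section

namespace Vale.Agent.P301.H897

open Vale.Agent.P272.K Vale.Agent.P272.K.INT Vale.Agent.P301.H599

variable {d : ℕ} {A : Type} {α : Type*}

/-- local convergence implies convergence on compact sets -/
theorem LConv.of_local {l : Filter α} {f : α → Cm d → A → ℂ} {G : Cm d → A → ℂ} {K : Set (Cm d)}
    (hK : IsCompact K) (hloc : ∀ z ∈ K, ∃ r : ℝ, 0 < r ∧ LConv l f G (closedBall z r)) :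
    LConv l f G K := by
  intro W hW B hB hWB a
  have h0 : Tendsto (fun n => ∫⁻ z in K ∩ K, W n z * ‖f n z a - G z a‖ₑ ^ 2) l (𝓝 0) := by
    refine hK.induction_on (p := fun S =>
      Tendsto (fun n => ∫⁻ z in S ∩ K, W n z * ‖f n z a - G z a‖ₑ ^ 2) l (𝓝 0)) ?_ ?_ ?_ ?_
    · simpa using tendsto_const_nhds
    · intro S S' hSS h
      exact tendsto_of_tendsto_of_tendsto_of_le_of_le tendsto_const_nhds h (fun _ => zero_le)
        fun n => lintegral_mono_set (inter_subset_inter_left _ hSS)
    · intro S S' h h'
      have h2 := h.add h'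
      rw [add_zero] at h2
      refine tendsto_of_tendsto_of_tendsto_of_le_of_le tendsto_const_nhds h2 (fun _ => zero_le)
        fun n => ?_
      simp only
      rw [union_inter_distrib_right]
      exact lintegral_union_le _ _ _
    · intro z hz
      obtain ⟨r, hr, hc⟩ := hloc z hz
      refine ⟨closedBall z r, mem_nhdsWithin_of_mem_nhds (closedBall_mem_nhds z hr), ?_⟩
      have h1 := hc (fun n => K.indicator (W n))
        (fun n => ((aemeasurable_indicator_iff hK.measurableSet).2 (hW n)).restrict) B hB ?_ a
      · refine h1.congr fun n => ?_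
        have h2 : ∀ z, K.indicator (W n) z * ‖f n z a - G z a‖ₑ ^ 2 = K.indicator
            (fun z => W n z * ‖f n z a - G z a‖ₑ ^ 2) z := by
          intro z
          by_cases hz : z ∈ K
          · rw [indicator_of_mem hz, indicator_of_mem hz]
          · rw [indicator_of_notMem hz, indicator_of_notMem hz, zero_mul]
        simp_rw [h2]
        rw [lintegral_indicator hK.measurableSet, Measure.restrict_restrict hK.measurableSet,
          inter_comm]
      · filter_upwards [hWB] with n hn
        refine le_trans ?_ hn
        have h2 : ∀ z, K.indicator (W n) z ^ (2 * d + 1) =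
            K.indicator (fun z => W n z ^ (2 * d + 1)) z := by
          intro z
          by_cases hz : z ∈ K
          · rw [indicator_of_mem hz, indicator_of_mem hz]
          · rw [indicator_of_notMem hz, indicator_of_notMem hz, zero_pow (by positivity)]
        simp_rw [h2]
        rw [lintegral_indicator hK.measurableSet, Measure.restrict_restrict hK.measurableSet]
        exact lintegral_mono_set inter_subset_left
  rwa [inter_self] at h0

lemma LConv.mono {l : Filter α} {f : α → Cm d → A → ℂ} {G : Cm d → A → ℂ} {K K' : Set (Cm d)}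
    (h : LConv l f G K) (hK' : MeasurableSet K') (hKK : K' ⊆ K) : LConv l f G K' := by
  intro W hW B hB hWB a
  have h1 := h (fun n => K'.indicator (W n))
    (fun n => ((aemeasurable_indicator_iff hK').2 (hW n)).restrict) B hB ?_ a
  · refine h1.congr fun n => ?_
    have h2 : ∀ z, K'.indicator (W n) z * ‖f n z a - G z a‖ₑ ^ 2 = K'.indicator
        (fun z => W n z * ‖f n z a - G z a‖ₑ ^ 2) z := by
      intro z
      by_cases hz : z ∈ K'
      · rw [indicator_of_mem hz, indicator_of_mem hz]
      · rw [indicator_of_notMem hz, indicator_of_notMem hz, zero_mul]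
    simp_rw [h2]
    rw [lintegral_indicator hK', Measure.restrict_restrict hK', inter_eq_left.2 hKK]
  · filter_upwards [hWB] with n hn
    refine le_trans (le_of_eq ?_) hn
    have h2 : ∀ z, K'.indicator (W n) z ^ (2 * d + 1) =
        K'.indicator (fun z => W n z ^ (2 * d + 1)) z := by
      intro z
      by_cases hz : z ∈ K'
      · rw [indicator_of_mem hz, indicator_of_mem hz]
      · rw [indicator_of_notMem hz, indicator_of_notMem hz, zero_pow (by positivity)]
    simp_rw [h2]
    rw [lintegral_indicator hK', Measure.restrict_restrict hK', inter_eq_left.2 hKK]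

section global

variable {X : Type} [TopologicalSpace X] [ChartedSpace (Cm d) X] [IsManifold 𝓘(ℂ, Cm d) ω X]
  [T2Space X] [CompactSpace X]

/-- nonnegative densities which converge to zero locally have integrals which converge to zero -/
theorem intX_tendsto_zero {l : Filter α} {D : α → Chart d X → Cm d → ℝ}
    (hD : ∀ n, IsDensity (D n)) (hD0 : ∀ n e x, At e x → 0 ≤ D n e (e x))
    (hloc : ∀ e x, At e x → ∃ r : ℝ, 0 < r ∧
      Tendsto (fun n => ∫⁻ z in closedBall (e x) r, ENNReal.ofReal (D n e z)) l (𝓝 0)) :
    Tendsto (fun n => intX (D n)) l (𝓝 0) := by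
  set P := part d X with hP
  set K : Fin P.N → Set (Cm d) := fun i => (P.e i) '' tsupport (P.ρ i) with hKdef
  have hKc : ∀ i, IsCompact (K i) := fun i =>
    (isClosed_tsupport (P.ρ i)).isCompact.image_of_continuousOn
      ((P.e i).continuousOn.mono (P.supp i))
  have hKt : ∀ i, K i ⊆ (P.e i).target := by
    rintro i _ ⟨x, hx, rfl⟩; exact (P.e i).map_source (P.supp i hx)
  have hle : ∀ i x, P.ρ i x ≤ 1 := by
    intro i x
    rw [← P.sum x]
    exact Finset.single_le_sum (f := fun i => P.ρ i x) (fun j _ => P.nonneg j x)
      (Finset.mem_univ i)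
  -- the integrals over the compact sets tend to zero
  have h1 : ∀ i, Tendsto (fun n => ∫⁻ z in K i, ENNReal.ofReal (D n (P.e i) z)) l (𝓝 0) := by
    intro i
    refine (hKc i).induction_on (p := fun S =>
      Tendsto (fun n => ∫⁻ z in S, ENNReal.ofReal (D n (P.e i) z)) l (𝓝 0)) ?_ ?_ ?_ ?_
    · simpa using tendsto_const_nhds
    · intro S S' hSS h
      exact tendsto_of_tendsto_of_tendsto_of_le_of_le tendsto_const_nhds h (fun _ => zero_le)
        fun n => lintegral_mono_set hSS
    · intro S S' h h'
      have h2 := h.add h'
      rw [add_zero] at h2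
      exact tendsto_of_tendsto_of_tendsto_of_le_of_le tendsto_const_nhds h2 (fun _ => zero_le)
        fun n => lintegral_union_le _ _ _
    · intro z hz
      obtain ⟨r, hr, hc⟩ := hloc (P.e i) ((P.e i).symm z) ⟨P.mem i, (P.e i).map_target (hKt i hz)⟩
      rw [(P.e i).right_inv (hKt i hz)] at hc
      exact ⟨closedBall z r, mem_nhdsWithin_of_mem_nhds (closedBall_mem_nhds z hr), hc⟩
  have h2 : ∀ n i, ENNReal.ofReal (∫ z in (P.e i).target, P.ρ i ((P.e i).symm z) *
      D n (P.e i) z) ≤ ∫⁻ z in K i, ENNReal.ofReal (D n (P.e i) z) := by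
    intro n i
    have hDn : ∀ z ∈ (P.e i).target, 0 ≤ D n (P.e i) z := by
      intro z hz
      have := hD0 n (P.e i) ((P.e i).symm z) ⟨P.mem i, (P.e i).map_target hz⟩
      rwa [(P.e i).right_inv hz] at this
    rw [ofReal_integral_eq_lintegral_ofReal (integrableOn_part P (hD n) i)]
    · calc ∫⁻ z in (P.e i).target, ENNReal.ofReal (P.ρ i ((P.e i).symm z) * D n (P.e i) z)
          ≤ ∫⁻ z in (P.e i).target, (K i).indicator (fun z => ENNReal.ofReal (D n (P.e i) z)) z := by
            refine setLIntegral_mono_ae' (P.e i).open_target.measurableSet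
              (ae_of_all _ fun z hz => ?_)
            by_cases hzK : z ∈ K i
            · rw [indicator_of_mem hzK]
              refine ENNReal.ofReal_le_ofReal ?_
              have := hle i ((P.e i).symm z)
              have := hDn z hz
              nlinarith
            · have : P.ρ i ((P.e i).symm z) = 0 := by
                refine image_eq_zero_of_notMem_tsupport fun h => hzK ?_
                exact ⟨_, h, (P.e i).right_inv hz⟩
              rw [this, zero_mul, ENNReal.ofReal_zero]
              exact zero_le
        _ = _ := by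
            rw [lintegral_indicator (hKc i).measurableSet, Measure.restrict_restrict
              (hKc i).measurableSet, inter_eq_left.2 (hKt i)]
    · filter_upwards [self_mem_ae_restrict (P.e i).open_target.measurableSet] with z hz
      exact mul_nonneg (P.nonneg i _) (hDn z hz)
  have h3 : ∀ n, ENNReal.ofReal (intX (D n)) ≤
      ∑ i, ∫⁻ z in K i, ENNReal.ofReal (D n (P.e i) z) := by
    intro n
    unfold intX
    rw [ENNReal.ofReal_sum_of_nonneg]
    · exact Finset.sum_le_sum fun i _ => h2 n i
    · intro i _
      refine setIntegral_nonneg (P.e i).open_target.measurableSet fun z hz => ?_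
      have := hD0 n (P.e i) ((P.e i).symm z) ⟨P.mem i, (P.e i).map_target hz⟩
      rw [(P.e i).right_inv hz] at this
      exact mul_nonneg (P.nonneg i _) this
  have h4 : Tendsto (fun n => ∑ i, ∫⁻ z in K i, ENNReal.ofReal (D n (P.e i) z)) l (𝓝 0) := by
    have := tendsto_finsetSum (Finset.univ) fun i _ => h1 i
    simpa using this
  have h5 : Tendsto (fun n => ENNReal.ofReal (intX (D n))) l (𝓝 0) :=
    tendsto_of_tendsto_of_tendsto_of_le_of_le tendsto_const_nhds h4 (fun _ => zero_le) h3
  have h6 := (ENNReal.tendsto_toReal ENNReal.zero_ne_top).comp h5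
  rw [ENNReal.toReal_zero] at h6
  refine h6.congr fun n => ?_
  simp only [Function.comp_apply]
  rw [ENNReal.toReal_ofReal (intX_nonneg (hD0 n))]

end global

end Vale.Agent.P301.H897
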