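import Vale.Agent.P301.H897.PD
import Vale.Agent.P301.H897.Glob
import Vale.Agent.P272.K.QN.H527.Tools

/-!
# Limits of smooth `L`-valued forms: the norms
-/

open scoped Manifold ContDiff ComplexOrder Topology Matrix Kronecker ENNReal
open Filter Metric Set MeasureTheory
open Vale.Agent.P272.K Vale.Agent.P272.K.C2 Vale.Agent.P299.H954 Vale.Agent.P299.IX
open Vale.Agent.P301.H599 Vale.Agent.P301.H862

noncomputable section

namespace Vale.Agent.P301.H897

variable {d : ℕ}

/-- the matrix of the Hermitian product of forms times the volume density -/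
def Mw (w : Cm d → Matrix (Fin d) (Fin d) ℂ) (z : Cm d) : Matrix (FI d) (FI d) ℂ :=
  ((w z).det.re : ℂ) • Ld w z

/-- the matrix of the gradient term -/
def Mg (w : Cm d → Matrix (Fin d) (Fin d) ℂ) (z : Cm d) :
    Matrix (Fin d × FI d) (Fin d × FI d) ℂ := ((w z)⁻¹)ᵀ ⊗ₖ Mw w z

section loc

variable {w : Cm d → Matrix (Fin d) (Fin d) ℂ} {f : Cm d → ℝ} {z : Cm d}

lemma Mw_posDef (h : KAt w z) : (Mw w z).PosDef := by
  have h1 : (Ld w z).PosDef := lam_posDef h.posz.inv
  have h2 : (0 : ℂ) < ((w z).det.re : ℂ) := by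
    exact_mod_cast C2.det_re_pos h.posz
  exact h1.smul h2

lemma Mg_posDef (h : KAt w z) : (Mg w z).PosDef :=
  (h.posz.inv.transpose).kronecker (Mw_posDef h)

lemma hw_eq (h : KAt w z) (u v : FI d → ℂ) :
    hw f w z u v = (Real.exp (-f z) : ℂ) * (star v ⬝ᵥ (Mw w z *ᵥ u)) := by
  rw [hw, hp, Vale.Agent.P299.IX.rho, zero_add, pow_one, Mw, Matrix.smul_mulVec, dotProduct_smul,
    smul_eq_mul, C2.det_re_eq h.posz]
  have : pr (Ld w z *ᵥ u) v = star v ⬝ᵥ (Ld w z *ᵥ u) := by
    simp only [pr, dotProduct, Pi.star_apply]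
    exact Finset.sum_congr rfl fun i _ => mul_comm _ _
  rw [this]

lemma hw_self_re (h : KAt w z) (u : FI d → ℂ) :
    (hw f w z u u).re = Real.exp (-f z) * (star u ⬝ᵥ (Mw w z *ᵥ u)).re := by
  rw [hw_eq h, Complex.re_ofReal_mul]

lemma grad_re (h : KAt w z) (V : Fin d → FI d → ℂ) :
    (∑ l, ∑ b, (w z)⁻¹ b l * hw f w z (V b) (V l)).re = Real.exp (-f z) *
      (star (fun q : Fin d × FI d => V q.1 q.2) ⬝ᵥ
        (Mg w z *ᵥ fun q : Fin d × FI d => V q.1 q.2)).re := by
  rw [← Complex.re_ofReal_mul]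
  congr 1
  simp only [hw_eq h]
  have h1 : (star (fun q : Fin d × FI d => V q.1 q.2) ⬝ᵥ
        (Mg w z *ᵥ fun q : Fin d × FI d => V q.1 q.2)) =
      ∑ l, ∑ b, (w z)⁻¹ b l * (star (V l) ⬝ᵥ (Mw w z *ᵥ V b)) := by
    simp only [dotProduct, Matrix.mulVec, Fintype.sum_prod_type, Pi.star_apply, Mg,
      Matrix.kroneckerMap_apply, Matrix.transpose_apply, Finset.mul_sum]
    refine Finset.sum_congr rfl fun l _ => ?_
    rw [Finset.sum_comm]
    refine Finset.sum_congr rfl fun b _ => Finset.sum_congr rfl fun I _ =>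
      Finset.sum_congr rfl fun J _ => ?_
    ring
  rw [h1, Finset.mul_sum]
  refine Finset.sum_congr rfl fun l _ => ?_
  rw [Finset.mul_sum]
  exact Finset.sum_congr rfl fun b _ => by ring

lemma cont_Mw (h : KAt w z) (I J : FI d) : ContinuousAt (fun y => Mw w y I J) z := by
  have h1 : ContinuousAt (fun y => (w y).det) z := h.sm.det.continuousAt
  have h2 : ContinuousAt (fun y => Ld w y I J) z := (MC_Ld h I J).continuousAt
  have h3 : ContinuousAt (fun y => ((w y).det.re : ℂ)) z :=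
    Complex.continuous_ofReal.continuousAt.comp (Complex.continuous_re.continuousAt.comp h1)
  exact h3.mul h2

lemma cont_Mg (h : KAt w z) (p q : Fin d × FI d) : ContinuousAt (fun y => Mg w y p q) z := by
  have h1 : ContinuousAt (fun y => (w y)⁻¹ q.1 p.1) z := (h.inv q.1 p.1).continuousAt
  exact h1.mul (cont_Mw h p.2 q.2)

end loc

section

variable {X : Type} [TopologicalSpace X] [ChartedSpace (Cm d) X] {ι : Type}
  {w : Chart d X → Cm d → Matrix (Fin d) (Fin d) ℂ} {L : LineBundle d X ι} {ρ : ι → X → ℝ}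

/-- bounds for the norms on compact sets -/
lemma exists_norm_bounds (hk : IsKahler w) (hρ : IsMetric L ρ) {e : Chart d X}
    (he : e ∈ atlas (Cm d) X) {i : ι} {S : Set (Cm d)} (hS : IsCompact S) (hSD : S ⊆ Dom L i e) :
    ∃ c C : ℝ, 0 < c ∧ 0 ≤ C ∧ ∀ z ∈ S, ∀ v : X → ℝ, (∀ u : FI d → ℂ,
      c * (Real.exp (-v (e.symm z)) * ∑ I, ‖u I‖ ^ 2) ≤
        (hw (wt (fun i x => ρ i x + v x) i e) (w e) z u u).re ∧
      (hw (wt (fun i x => ρ i x + v x) i e) (w e) z u u).re ≤
        C * (Real.exp (-v (e.symm z)) * ∑ I, ‖u I‖ ^ 2)) ∧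
      ∀ V : Fin d → FI d → ℂ, c * (Real.exp (-v (e.symm z)) * ∑ l, ∑ I, ‖V l I‖ ^ 2) ≤
        (∑ l, ∑ b, (w e z)⁻¹ b l *
          hw (wt (fun i x => ρ i x + v x) i e) (w e) z (V b) (V l)).re := by
  have hK : ∀ z ∈ S, KAt (w e) z := by
    intro z hz
    have := kat hk (e := e) (x := e.symm z) ⟨he, e.map_target (hSD hz).1⟩
    rwa [e.right_inv (hSD hz).1] at this
  have hρc : ContinuousOn (fun z => ρ i (e.symm z)) S := by
    intro z hz
    have := hρ.smooth i e (e.symm z) ⟨he, e.map_target (hSD hz).1⟩ (hSD hz).2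
    rw [e.right_inv (hSD hz).1] at this
    exact this.continuousAt.continuousWithinAt
  obtain ⟨R, hR⟩ := hS.exists_bound_of_continuousOn hρc
  obtain ⟨c1, hc1, h1⟩ := exists_lower hS (M := Mw (w e))
    (fun I J z hz => (cont_Mw (hK z hz) I J).continuousWithinAt) (fun z hz => Mw_posDef (hK z hz))
  obtain ⟨C1, hC1, h2⟩ := exists_upper hS (M := Mw (w e))
    (fun I J z hz => (cont_Mw (hK z hz) I J).continuousWithinAt)
  obtain ⟨c2, hc2, h3⟩ := exists_lower hS (M := Mg (w e))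
    (fun p q z hz => (cont_Mg (hK z hz) p q).continuousWithinAt) (fun z hz => Mg_posDef (hK z hz))
  have hexp : ∀ z ∈ S, ∀ v : X → ℝ, Real.exp (-R) * Real.exp (-v (e.symm z)) ≤
      Real.exp (-wt (fun i x => ρ i x + v x) i e z) ∧
      Real.exp (-wt (fun i x => ρ i x + v x) i e z) ≤ Real.exp R * Real.exp (-v (e.symm z)) := by
    intro z hz v
    have hb := abs_le.1 (hR z hz)
    show _ ≤ Real.exp (-(ρ i (e.symm z) + v (e.symm z))) ∧
      Real.exp (-(ρ i (e.symm z) + v (e.symm z))) ≤ _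
    rw [← Real.exp_add, ← Real.exp_add]
    exact ⟨Real.exp_le_exp.2 (by linarith [hb.2]), Real.exp_le_exp.2 (by linarith [hb.1])⟩
  refine ⟨Real.exp (-R) * min c1 c2, Real.exp R * C1, by positivity, by positivity,
    fun z hz v => ⟨fun u => ⟨?_, ?_⟩, fun V => ?_⟩⟩
  · rw [hw_self_re (hK z hz)]
    calc Real.exp (-R) * min c1 c2 * (Real.exp (-v (e.symm z)) * ∑ I, ‖u I‖ ^ 2)
        ≤ Real.exp (-R) * c1 * (Real.exp (-v (e.symm z)) * ∑ I, ‖u I‖ ^ 2) := by
          gcongr; exact min_le_left _ _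
      _ = (Real.exp (-R) * Real.exp (-v (e.symm z))) * (c1 * ∑ I, ‖u I‖ ^ 2) := by ring
      _ ≤ _ := by
          gcongr
          · exact (hexp z hz v).1
          · exact h1 z hz u
  · rw [hw_self_re (hK z hz)]
    calc Real.exp (-wt (fun i x => ρ i x + v x) i e z) * (star u ⬝ᵥ (Mw (w e) z *ᵥ u)).re
        ≤ Real.exp (-wt (fun i x => ρ i x + v x) i e z) * (C1 * ∑ I, ‖u I‖ ^ 2) := by
          gcongr; exact h2 z hz u
      _ ≤ (Real.exp R * Real.exp (-v (e.symm z))) * (C1 * ∑ I, ‖u I‖ ^ 2) := by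
          gcongr; exact (hexp z hz v).2
      _ = _ := by ring
  · rw [grad_re (hK z hz)]
    have h4 := h3 z hz fun q : Fin d × FI d => V q.1 q.2
    rw [Fintype.sum_prod_type] at h4
    calc Real.exp (-R) * min c1 c2 * (Real.exp (-v (e.symm z)) * ∑ l, ∑ I, ‖V l I‖ ^ 2)
        ≤ Real.exp (-R) * c2 * (Real.exp (-v (e.symm z)) * ∑ l, ∑ I, ‖V l I‖ ^ 2) := by
          gcongr; exact min_le_right _ _
      _ = (Real.exp (-R) * Real.exp (-v (e.symm z))) * (c2 * ∑ l, ∑ I, ‖V l I‖ ^ 2) := by ring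
      _ ≤ _ := by
          gcongr
          exact (hexp z hz v).1

/-- the metric `ρ + v` -/
lemma IsMetric.add (hρ : IsMetric L ρ) {v : X → ℝ} (hv : Smooth (d := d) v) :
    IsMetric L (fun i x => ρ i x + v x) where
  smooth i e x hx hi := (hρ.smooth i e x hx hi).add (hv e x hx)
  change i j x hi hj := by rw [hρ.change i j x hi hj]; ring

lemma hX_nonneg (hk : IsKahler w) (g : Fam d X ι) {i : ι} {e : Chart d X} {x : X} (hx : At e x) :
    0 ≤ (hX ρ w g g i e (e x)).re := hw_nonneg (kat hk hx) _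

lemma gradX_nonneg (hk : IsKahler w) (g : Fam d X ι) {i : ι} {e : Chart d X} {x : X}
    (hx : At e x) : 0 ≤ (gradX ρ w g g i e (e x)).re := by
  show 0 ≤ (∑ l, ∑ b, (w e (e x))⁻¹ b l * hw (wt ρ i e) (w e) (e x) (DVb b (g i e) (e x))
    (DVb l (g i e) (e x))).re
  rw [grad_re (kat hk hx) (fun l => DVb l (g i e) (e x))]
  refine mul_nonneg (Real.exp_pos _).le ?_
  exact (Complex.le_def.1 ((Matrix.posSemidef_iff_dotProduct_mulVec.1
    (Mg_posDef (kat hk hx)).posSemidef).2 _)).1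

variable [IsManifold 𝓘(ℂ, Cm d) ω X] [T2Space X] [CompactSpace X]

/-- the integral of the real part of a density over a small ball -/
lemma ball_le {D : ι → Chart d X → Cm d → ℂ} (hD : IsDens L D)
    (h0 : ∀ i e x, At e x → x ∈ L.U i → 0 ≤ (D i e (e x)).re) {e : Chart d X}
    (he : e ∈ atlas (Cm d) X) {i : ι} {z₀ : Cm d} {r : ℝ} (hr : 0 < r)
    (hb : closedBall z₀ r ⊆ Dom L i e) :
    ∫⁻ z in closedBall z₀ (r / 2), ENNReal.ofReal (D i e z).re ≤
      ENNReal.ofReal (intC L D).re := by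
  have hpt : ∀ z ∈ closedBall z₀ r, reD L D e z = (D i e z).re ∧ 0 ≤ (D i e z).re := by
    intro z hz
    have hx : At e (e.symm z) := ⟨he, e.map_target (hb hz).1⟩
    have h1 := reD_eq hD hx (hb hz).2
    have h2 := h0 i e (e.symm z) hx (hb hz).2
    rw [e.right_inv (hb hz).1] at h1 h2
    exact ⟨h1, h2⟩
  have h1 := QN.ball_le_intX hD.isDensity_re (fun e x hx => by
    rw [reD_eq hD hx (mem_ix L x)]; exact h0 _ e x hx (mem_ix L x)) he
    (fun z hz => (hb hz).1 : closedBall z₀ r ⊆ e.target)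
  rw [intC_re]
  refine le_trans ?_ (ENNReal.ofReal_le_ofReal h1)
  have hcont : ContinuousOn (reD L D e) (closedBall z₀ r) :=
    (hD.isDensity_re.continuousOn he).mono fun z hz => (hb hz).1
  rw [ofReal_integral_eq_lintegral_ofReal
    ((hcont.integrableOn_compact (isCompact_closedBall _ _)).mono_set ball_subset_closedBall)]
  · calc ∫⁻ z in closedBall z₀ (r / 2), ENNReal.ofReal (D i e z).re
        = ∫⁻ z in closedBall z₀ (r / 2), ENNReal.ofReal (reD L D e z) := by
          refine setLIntegral_congr_fun measurableSet_closedBall fun z hz => ?_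
          show _ = ENNReal.ofReal (reD L D e z)
          rw [(hpt z (closedBall_subset_closedBall (by linarith) hz)).1]
      _ ≤ _ := lintegral_mono_set (closedBall_subset_ball (by linarith))
  · filter_upwards [self_mem_ae_restrict measurableSet_ball] with z hz
    have := hpt z (ball_subset_closedBall hz)
    rw [Pi.zero_apply, this.1]
    exact this.2

end

end Vale.Agent.P301.H897
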