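import Vale.Agent.P301.H897.LocLim
import Vale.Agent.P301.H599.Stmt
import Vale.Agent.P272.K.INT.Dens
import Vale.Agent.P272.K.Inv.Chart

/-!
# Change of charts and uniqueness of `L²` limits
-/

open scoped Manifold ContDiff Topology ComplexConjugate ENNReal
open MeasureTheory Set Filter Metric

noncomputable section

namespace Vale.Agent.P301.H897

open Vale.Agent.P272.K Vale.Agent.P272.K.INT

variable {d : ℕ} {α : Type*}

lemma eq_of_lim {l : Filter α} [l.NeBot] {S : Set (Cm d)} {z₀ : Cm d} (hS : S ∈ 𝓝 z₀)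
    {f : α → Cm d → ℂ} {G H : Cm d → ℂ}
    (hm : ∀ n, AEMeasurable (fun z => ‖f n z - G z‖ₑ ^ 2) (volume.restrict S))
    (hG : ContinuousAt G z₀) (hH : ContinuousAt H z₀)
    (h1 : Tendsto (fun n => ∫⁻ z in S, ‖f n z - G z‖ₑ ^ 2) l (𝓝 0))
    (h2 : Tendsto (fun n => ∫⁻ z in S, ‖f n z - H z‖ₑ ^ 2) l (𝓝 0)) : G z₀ = H z₀ := by
  have h3 : ∫⁻ z in S, ‖G z - H z‖ₑ ^ 2 = 0 := by
    have h4 : Tendsto (fun n => 4 * ((∫⁻ z in S, ‖f n z - G z‖ₑ ^ 2) +
        ∫⁻ z in S, ‖f n z - H z‖ₑ ^ 2)) l (𝓝 0) := by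
      have := ENNReal.Tendsto.const_mul (a := 4) (h1.add h2) (Or.inr (by finiteness))
      simpa using this
    refine le_antisymm (ge_of_tendsto' h4 fun n => ?_) zero_le
    rw [← lintegral_add_left' (hm n), ← lintegral_const_mul' _ _ (by finiteness)]
    refine lintegral_mono fun z => ?_
    have h5 : G z - H z = (f n z - H z) - (f n z - G z) := by ring
    calc ‖G z - H z‖ₑ ^ 2 ≤ (‖f n z - G z‖ₑ + ‖f n z - H z‖ₑ) ^ 2 := by
          rw [h5]
          gcongr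
          rw [add_comm]
          exact enorm_sub_le
      _ ≤ _ := add_sq_le' _ _
  by_contra hne
  have h6 : ContinuousAt (fun z => ‖G z - H z‖) z₀ := (hG.sub hH).norm
  set c : ℝ := ‖G z₀ - H z₀‖ / 2 with hc
  have hpos : 0 < ‖G z₀ - H z₀‖ := norm_pos_iff.2 (sub_ne_zero.2 hne)
  have hc0 : 0 < c := by positivity
  have h7 : ∀ᶠ z in 𝓝 z₀, c < ‖G z - H z‖ := h6.eventually (lt_mem_nhds (by rw [hc]; linarith))
  obtain ⟨r, hr, hsub⟩ := Metric.mem_nhds_iff.1 (inter_mem h7 hS)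
  have h8 : ENNReal.ofReal c ^ 2 * volume (ball z₀ r) ≤ 0 := by
    calc ENNReal.ofReal c ^ 2 * volume (ball z₀ r) = ∫⁻ _ in ball z₀ r, ENNReal.ofReal c ^ 2 := by
          rw [setLIntegral_const]
      _ ≤ ∫⁻ z in ball z₀ r, ‖G z - H z‖ₑ ^ 2 := by
          refine setLIntegral_mono_ae' measurableSet_ball (ae_of_all _ fun z hz => ?_)
          rw [← ofReal_norm]
          gcongr
          exact (hsub hz).1.le
      _ ≤ ∫⁻ z in S, ‖G z - H z‖ₑ ^ 2 := lintegral_mono_set fun z hz => (hsub hz).2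
      _ = 0 := h3
  have h9 : 0 < ENNReal.ofReal c ^ 2 * volume (ball z₀ r) := by
    have h10 : 0 < volume (ball z₀ r) := measure_ball_pos _ _ hr
    have h11 : 0 < ENNReal.ofReal c := ENNReal.ofReal_pos.2 hc0
    exact ENNReal.mul_pos (pow_ne_zero _ h11.ne') h10.ne'
  exact absurd h8 (not_le.2 h9)

/-- linear combinations with bounded coefficients -/
lemma tendsto_comb {β : Type*} [Fintype β] {l : Filter α} {S : Set (Cm d)} (hS : MeasurableSet S)
    {h : α → β → Cm d → ℂ} {H : β → Cm d → ℂ}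
    (hm : ∀ n b, AEMeasurable (fun z => ‖h n b z - H b z‖ₑ ^ 2) (volume.restrict S))
    {c : β → Cm d → ℂ} {C : ℝ≥0∞} (hC : C ≠ ⊤) (hc : ∀ b, ∀ z ∈ S, ‖c b z‖ₑ ≤ C)
    (h1 : ∀ b, Tendsto (fun n => ∫⁻ z in S, ‖h n b z - H b z‖ₑ ^ 2) l (𝓝 0)) :
    Tendsto (fun n => ∫⁻ z in S, ‖(∑ b, c b z * h n b z) - ∑ b, c b z * H b z‖ₑ ^ 2) l (𝓝 0) := by
  have h2 : ∀ n, ∫⁻ z in S, ‖(∑ b, c b z * h n b z) - ∑ b, c b z * H b z‖ₑ ^ 2 ≤
      (Fintype.card β * C ^ 2) * ∑ b, ∫⁻ z in S, ‖h n b z - H b z‖ₑ ^ 2 := by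
    intro n
    rw [← lintegral_finsetSum' _ fun b _ => hm n b,
      ← lintegral_const_mul' _ _ (by finiteness)]
    refine setLIntegral_mono_ae' hS (ae_of_all _ fun z hz => ?_)
    have h3 : (∑ b, c b z * h n b z) - ∑ b, c b z * H b z = ∑ b, c b z * (h n b z - H b z) := by
      rw [← Finset.sum_sub_distrib]
      exact Finset.sum_congr rfl fun b _ => by ring
    rw [h3]
    have h4 := ENNReal.rpow_sum_le_const_mul_sum_rpow (Finset.univ)
      (fun b => ‖c b z‖ₑ * ‖h n b z - H b z‖ₑ) (p := 2) one_le_two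
    norm_num at h4
    calc ‖∑ b, c b z * (h n b z - H b z)‖ₑ ^ 2 ≤ (∑ b, ‖c b z‖ₑ * ‖h n b z - H b z‖ₑ) ^ 2 := by
          gcongr
          refine (enorm_sum_le _ _).trans_eq ?_
          exact Finset.sum_congr rfl fun b _ => enorm_mul _ _
      _ ≤ Fintype.card β * ∑ b, (‖c b z‖ₑ * ‖h n b z - H b z‖ₑ) ^ 2 := h4
      _ ≤ Fintype.card β * ∑ b, (C ^ 2 * ‖h n b z - H b z‖ₑ ^ 2) := by
          gcongr with b
          rw [mul_pow]
          gcongr
          exact hc b z hz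
      _ = _ := by rw [← Finset.mul_sum]; ring
  have h5 : Tendsto (fun n => (Fintype.card β * C ^ 2) * ∑ b, ∫⁻ z in S, ‖h n b z - H b z‖ₑ ^ 2) l
      (𝓝 0) := by
    have := ENNReal.Tendsto.const_mul (a := (Fintype.card β : ℝ≥0∞) * C ^ 2)
      (tendsto_finsetSum (Finset.univ) fun b _ => h1 b) (Or.inr (by finiteness))
    simpa using this
  exact tendsto_of_tendsto_of_tendsto_of_le_of_le tendsto_const_nhds h5 (fun _ => zero_le) h2

section charts

variable {X : Type*} [TopologicalSpace X] [ChartedSpace (Cm d) X] [IsManifold 𝓘(ℂ, Cm d) ω X]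

/-- change of charts in integrals over small balls -/
lemma lintegral_chart_le {e e' : Chart d X} {x : X} (hx : At e x) (hx' : At e' x)
    {S' : Set (Cm d)} (hS' : S' ∈ 𝓝 (e' x)) {S'' : Set (Cm d)} (hS'' : S'' ∈ 𝓝 (e x)) :
    ∃ r : ℝ, 0 < r ∧ closedBall (e x) r ⊆ S'' ∧ (∀ z ∈ closedBall (e x) r, z ∈ e.target ∧
      e.symm z ∈ e'.source ∧ e' (e.symm z) ∈ S') ∧
      ∃ C : ℝ≥0∞, C ≠ ⊤ ∧ ∀ f : Cm d → ℝ≥0∞, ∫⁻ z in closedBall (e x) r, f (e' (e.symm z)) ≤
        C * ∫⁻ z in S', f z := by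
  set T : Cm d → Cm d := fun z => e' (e.symm z) with hT
  have hxt : e x ∈ e.target := e.map_source hx.2
  have hTc : ContDiffAt ℂ ω T (e x) := transition_contDiffAt hx hx'
  have hTx : T (e x) = e' x := by rw [hT]; simp only; rw [e.left_inv hx.2]
  have hTr : ContDiffAt ℝ 1 T (e x) := (hTc.restrict_scalars ℝ).of_le le_top
  have hD : ContinuousAt (fun z => (fderiv ℝ T z).det) (e x) := by
    have h1 : ContinuousAt (fderiv ℝ T) (e x) := hTr.continuousAt_fderiv one_ne_zero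
    exact ContinuousLinearMap.continuous_det.continuousAt.comp h1
  have hdet0 : (fderiv ℝ T (e x)).det ≠ 0 := by
    rw [hT, det_trans hx hx']
    exact pow_ne_zero _ (norm_ne_zero_iff.2 (jacM_det_ne_zero hx hx'))
  set c : ℝ := |(fderiv ℝ T (e x)).det| / 2 with hc
  have hc0 : 0 < c := by have := abs_pos.2 hdet0; positivity
  have e1 : ∀ᶠ z in 𝓝 (e x), c < |(fderiv ℝ T z).det| :=
    hD.abs.eventually (lt_mem_nhds (by rw [hc]; linarith [abs_pos.2 hdet0]))
  have e2 : ∀ᶠ z in 𝓝 (e x), DifferentiableAt ℝ T z := by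
    filter_upwards [hTr.eventually (by simp)] with z hz using hz.differentiableAt one_ne_zero
  have e3 : ∀ᶠ z in 𝓝 (e x), z ∈ e.target := e.open_target.mem_nhds hxt
  have e4 : ∀ᶠ z in 𝓝 (e x), e.symm z ∈ e'.source := by
    have h1 : ContinuousAt e.symm (e x) := e.continuousAt_symm hxt
    refine h1.eventually_mem ?_
    rw [e.left_inv hx.2]
    exact e'.open_source.mem_nhds hx'.2
  have e5 : ∀ᶠ z in 𝓝 (e x), T z ∈ S' := by
    refine hTr.continuousAt.eventually_mem ?_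
    rw [hTx]; exact hS'
  obtain ⟨r, hr, hsub⟩ := Metric.nhds_basis_closedBall.mem_iff.1
    (e1.and (e2.and (e3.and (e4.and (e5.and (show ∀ᶠ z in 𝓝 (e x), z ∈ S'' from hS''))))))
  refine ⟨r, hr, fun z hz => (hsub hz).2.2.2.2.2, fun z hz => ⟨(hsub hz).2.2.1, (hsub hz).2.2.2.1,
    (hsub hz).2.2.2.2.1⟩, (ENNReal.ofReal c)⁻¹, ?_, fun f => ?_⟩
  · exact ENNReal.inv_ne_top.2 (ENNReal.ofReal_pos.2 hc0).ne'
  have hinj : InjOn T (closedBall (e x) r) := by
    intro z hz w hw hzw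
    have h1 : e.symm z = e.symm w := e'.injOn (hsub hz).2.2.2.1 (hsub hw).2.2.2.1 hzw
    exact e.symm.injOn (hsub hz).2.2.1 (hsub hw).2.2.1 h1
  have h1 := lintegral_image_eq_lintegral_abs_det_fderiv_mul (volume : Measure (Cm d))
    (s := closedBall (e x) r) measurableSet_closedBall (f := T) (f' := fderiv ℝ T)
    (fun z hz => (hsub hz).2.1.hasFDerivAt.hasFDerivWithinAt) hinj f
  calc ∫⁻ z in closedBall (e x) r, f (T z)
      ≤ ∫⁻ z in closedBall (e x) r, (ENNReal.ofReal c)⁻¹ *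
          (ENNReal.ofReal |(fderiv ℝ T z).det| * f (T z)) := by
        refine setLIntegral_mono_ae' measurableSet_closedBall (ae_of_all _ fun z hz => ?_)
        calc f (T z) = ((ENNReal.ofReal c)⁻¹ * ENNReal.ofReal c) * f (T z) := by
              rw [ENNReal.inv_mul_cancel (ENNReal.ofReal_pos.2 hc0).ne' ENNReal.ofReal_ne_top,
                one_mul]
          _ ≤ ((ENNReal.ofReal c)⁻¹ * ENNReal.ofReal |(fderiv ℝ T z).det|) * f (T z) := by
              gcongr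
              exact (hsub hz).1.le
          _ = _ := by ring
    _ = (ENNReal.ofReal c)⁻¹ * ∫⁻ z in T '' closedBall (e x) r, f z := by
        rw [lintegral_const_mul' _ _ (ENNReal.inv_ne_top.2 (ENNReal.ofReal_pos.2 hc0).ne'), h1]
    _ ≤ _ := by
        gcongr
        rintro _ ⟨z, hz, rfl⟩
        exact (hsub hz).2.2.2.2.1

end charts

end Vale.Agent.P301.H897
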