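import Vale.Agent.P301.H897.Weak

/-!
# The averages as convolutions
-/

open scoped ContDiff Topology ComplexConjugate ENNReal InnerProductSpace Convolution
open MeasureTheory Set Filter Metric

noncomputable section

namespace Vale.Agent.P301.H897

open Vale.Agent.P272.K Vale.Agent.P272.K.INT

variable {d : ℕ} {α : Type*}

/-- the kernel of the averages -/
def gk (δ : ℝ) (x : Cm d) : ℂ := (((δ ^ (2 * d))⁻¹ * chi (δ⁻¹ • x) : ℝ) : ℂ)

lemma gk_contDiff (δ : ℝ) : ContDiff ℝ ∞ (gk (d := d) δ) :=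
  Complex.ofRealCLM.contDiff.comp
    (contDiff_const.mul (chi_contDiff.comp (contDiff_const_smul δ⁻¹)))

lemma gk_off {δ : ℝ} (hδ : 0 < δ) {x : Cm d} (hx : δ ≤ ‖x‖) : gk δ x = 0 := by
  unfold gk
  rw [chi_off, mul_zero, Complex.ofReal_zero]
  rw [norm_smul, Real.norm_of_nonneg (by positivity)]
  rwa [inv_mul_eq_div, one_le_div hδ]

lemma gk_hasCompactSupport {δ : ℝ} (hδ : 0 < δ) : HasCompactSupport (gk (d := d) δ) := by
  refine (isCompact_closedBall (0 : Cm d) δ).of_isClosed_subset (isClosed_tsupport _)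
    (closure_minimal ?_ isClosed_closedBall)
  intro z hz
  rw [mem_closedBall_zero_iff]
  by_contra h
  exact hz (gk_off hδ (not_le.1 h).le)

lemma chi_neg (z : Cm d) : chi (-z) = chi z := by
  have := chi_smul (c := -1) (by simp) z
  simpa using this

lemma avg_eq {δ : ℝ} (hδ : 0 < δ) (F : Cm d → ℂ) (a : Cm d) :
    avg F δ a = ∫ y, F y * gk δ (a - y) := by
  have h1 : ∫ y, F y * gk δ (a - y) = ∫ x, F (a + x) * gk δ (-x) := by
    rw [← integral_add_left_eq_self (fun y => F y * gk δ (a - y)) a]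
    refine integral_congr_ae (ae_of_all _ fun x => ?_)
    simp
  have h2 := Measure.integral_comp_smul (volume : Measure (Cm d))
    (fun x => F (a + x) * gk δ (-x)) δ
  rw [h1]
  have h3 : ∫ x, F (a + x) * gk δ (-x) = (δ ^ (2 * d)) • ∫ z, F (a + δ • z) * gk δ (-(δ • z)) := by
    rw [h2, finrank_Cm, abs_of_pos (by positivity), smul_smul, mul_inv_cancel₀ (by positivity),
      one_smul]
  rw [h3, ← integral_smul]
  unfold avg
  refine integral_congr_ae (ae_of_all _ fun z => ?_)
  simp only [gk, smul_neg, smul_smul, inv_mul_cancel₀ hδ.ne', one_smul, chi_neg]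
  have h4 : ((δ : ℂ) • z : Cm d) = δ • z := rfl
  rw [h4, Complex.real_smul, Complex.real_smul]
  push_cast
  have : ((δ : ℂ)) ^ (2 * d) ≠ 0 := pow_ne_zero _ (Complex.ofReal_ne_zero.2 hδ.ne')
  field_simp

/-- the averages of a function on `K` -/
def cv (δ : ℝ) (K : Set (Cm d)) (f : Cm d → ℂ) (a : Cm d) : ℂ := ∫ y in K, f y * gk δ (a - y)

lemma avg_eq_cv {c : Cm d} {R δ : ℝ} (hδ : 0 < δ) (F : Cm d → ℂ) {a : Cm d}
    (ha : a ∈ closedBall c (R - δ)) : avg F δ a = cv δ (closedBall c R) F a := by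
  rw [avg_eq hδ, cv]
  refine (setIntegral_eq_integral_of_forall_compl_eq_zero fun y hy => ?_).symm
  rw [gk_off hδ, mul_zero]
  by_contra h
  push Not at h
  apply hy
  rw [mem_closedBall, dist_eq_norm] at ha ⊢
  calc ‖y - c‖ = ‖(a - c) - (a - y)‖ := by congr 1; abel
    _ ≤ ‖a - c‖ + ‖a - y‖ := norm_sub_le _ _
    _ ≤ R := by linarith

variable {K : Set (Cm d)} {f : Cm d → ℂ}

lemma cv_hasFDerivAt {δ : ℝ} (hδ : 0 < δ) (hK : MeasurableSet K)
    (hf : IntegrableOn f K) (a : Cm d) :
    HasFDerivAt (cv δ K f) (fderiv ℝ (cv δ K f) a) a ∧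
      ∀ v, fderiv ℝ (cv δ K f) a v = ∫ y in K, fderiv ℝ (gk δ) (a - y) v * f y := by
  have h0 : cv δ K f = (K.indicator f) ⋆[ContinuousLinearMap.mul ℝ ℂ, volume] gk δ := by
    funext a
    unfold cv
    rw [convolution_def, ← integral_indicator hK]
    refine integral_congr_ae (ae_of_all _ fun y => ?_)
    simp only [ContinuousLinearMap.mul_apply']
    by_cases hy : y ∈ K
    · rw [indicator_of_mem hy, indicator_of_mem hy]
    · rw [indicator_of_notMem hy, indicator_of_notMem hy, zero_mul]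
  have hg1 : ContDiff ℝ 1 (gk (d := d) δ) := (gk_contDiff δ).of_le (by norm_cast)
  have h1 := (gk_hasCompactSupport (d := d) hδ).hasFDerivAt_convolution_right
    (ContinuousLinearMap.mul ℝ ℂ) (f := K.indicator f) (μ := volume)
    ((integrable_indicator_iff hK).2 hf).locallyIntegrable hg1 a
  rw [← h0] at h1
  refine ⟨h1.differentiableAt.hasFDerivAt, fun v => ?_⟩
  rw [h1.fderiv, convolution_precompR_apply _
    ((integrable_indicator_iff hK).2 hf).locallyIntegrable
    ((gk_hasCompactSupport hδ).fderiv ℝ) (hg1.continuous_fderiv one_ne_zero), convolution_def,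
    ← integral_indicator hK]
  refine integral_congr_ae (ae_of_all _ fun y => ?_)
  simp only [ContinuousLinearMap.mul_apply']
  by_cases hy : y ∈ K
  · rw [indicator_of_mem hy, indicator_of_mem hy, mul_comm]
  · rw [indicator_of_notMem hy, indicator_of_notMem hy, zero_mul]

end Vale.Agent.P301.H897
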