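import Vale.Agent.P301.H897.Rep
import Mathlib.MeasureTheory.Integral.MeanInequalities
import Mathlib.MeasureTheory.Measure.Lebesgue.EqHaar
import Mathlib.LinearAlgebra.Complex.FiniteDimensional

/-!
# The weighted `L²` estimate of `F` minus its averages
-/

open scoped ContDiff Topology ComplexConjugate ENNReal
open MeasureTheory Set Filter Metric

noncomputable section

namespace Vale.Agent.P301.H897

open Vale.Agent.P272.K Vale.Agent.P272.K.INT

variable {d : ℕ}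

lemma sq_lintegral_le {α : Type*} [MeasurableSpace α] (μ : Measure α) [IsProbabilityMeasure μ]
    {f : α → ℝ≥0∞} (hf : AEMeasurable f μ) : (∫⁻ a, f a ∂μ) ^ 2 ≤ ∫⁻ a, f a ^ 2 ∂μ := by
  have hpq : (2 : ℝ).HolderConjugate 2 := by
    rw [Real.holderConjugate_iff]; norm_num
  have h := ENNReal.lintegral_mul_le_Lp_mul_Lq μ hpq hf (g := fun _ => 1) aemeasurable_const
  simp only [Pi.mul_apply, mul_one, ENNReal.one_rpow, lintegral_const, measure_univ] at h
  calc (∫⁻ a, f a ∂μ) ^ 2 ≤ ((∫⁻ a, f a ^ (2 : ℝ) ∂μ) ^ (1 / (2 : ℝ))) ^ 2 := by gcongr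
    _ = ∫⁻ a, f a ^ (2 : ℝ) ∂μ := by
        rw [← ENNReal.rpow_natCast, ← ENNReal.rpow_mul]
        norm_num
    _ = ∫⁻ a, f a ^ 2 ∂μ := by
        refine lintegral_congr fun a => ?_
        rw [← ENNReal.rpow_natCast]; norm_num

lemma le_lam (w lam : ℝ≥0∞) (h0 : lam ≠ 0) (ht : lam ≠ ⊤) (k : ℕ) :
    w ≤ lam + lam⁻¹ ^ k * w ^ (k + 1) := by
  rcases le_total w lam with h | h
  · exact h.trans le_self_add
  · refine le_trans ?_ le_add_self
    have h1 : (1 : ℝ≥0∞) ≤ lam⁻¹ * w := by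
      rw [← ENNReal.inv_mul_cancel h0 ht]; gcongr
    calc w = 1 ^ k * w := by rw [one_pow, one_mul]
      _ ≤ (lam⁻¹ * w) ^ k * w := by gcongr
      _ = lam⁻¹ ^ k * w ^ (k + 1) := by rw [mul_pow, pow_succ]; ring

lemma finrank_Cm : Module.finrank ℝ (Cm d) = 2 * d := by
  rw [Module.finrank_pi_fintype]
  simp [Complex.finrank_real_complex, mul_comm]

lemma lintegral_scale {f : Cm d → ℝ≥0∞} (hf : Measurable f) (y : Cm d) {s : ℝ} (hs : 0 < s) :
    ∫⁻ z, f (y - (s : ℂ) • z) = ENNReal.ofReal ((s ^ (2 * d))⁻¹) * ∫⁻ z, f z := by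
  have h1 : ∫⁻ z, f (y - (s : ℂ) • z) =
      ∫⁻ z, f (y - z) ∂(Measure.map (fun z : Cm d => s • z) volume) := by
    rw [lintegral_map (f := fun z => f (y - z)) (hf.comp (by fun_prop)) (measurable_const_smul s)]
    rfl
  rw [h1, Measure.map_addHaar_smul _ hs.ne', lintegral_smul_measure, finrank_Cm,
    lintegral_sub_left_eq_self f y, abs_of_pos (by positivity), smul_eq_mul]

/-- the averages -/
def avg (F : Cm d → ℂ) (δ : ℝ) (a : Cm d) : ℂ := ∫ z, chi z • F (a + (δ : ℂ) • z)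

/-- the size of `∂̄ F` -/
def VV (F : Cm d → ℂ) (y : Cm d) : ℝ≥0∞ := ∑ j, ‖dzb j F y‖ₑ

/-- the uniform measure on `(0,1]` -/
def mu1 : Measure ℝ := volume.restrict (Ioc 0 1)

/-- the measure with density `chi` -/
def mu2 (d : ℕ) : Measure (Cm d) := volume.withDensity fun z => ENNReal.ofReal (chi z)

instance : IsProbabilityMeasure mu1 := ⟨by simp [mu1]⟩

instance : IsProbabilityMeasure (mu2 d) := ⟨by
  unfold mu2
  rw [withDensity_apply _ MeasurableSet.univ, Measure.restrict_univ,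
    ← ofReal_integral_eq_lintegral_ofReal chi_integrable (ae_of_all _ chi_nonneg), chi_integral,
    ENNReal.ofReal_one]⟩

lemma measurable_chi' : Measurable fun z : Cm d => ENNReal.ofReal (chi z) :=
  ENNReal.measurable_ofReal.comp chi_continuous.measurable

lemma lintegral_mu2 {f : Cm d → ℝ≥0∞} (hf : Measurable f) :
    ∫⁻ z, f z ∂(mu2 d) = ∫⁻ z, ENNReal.ofReal (chi z) * f z := by
  unfold mu2
  rw [lintegral_withDensity_eq_lintegral_mul _ measurable_chi' hf]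
  rfl

variable {F : Cm d → ℂ}

lemma measurable_VV (hF : ContDiff ℝ 1 F) : Measurable (VV F) := by
  unfold VV
  exact Finset.measurable_fun_sum _ fun j _ => (continuous_dzb hF j).measurable.enorm

lemma measurable_shift {E : Type*} [MeasurableSpace E] {G : Cm d → E} (hG : Measurable G)
    (a : Cm d) (s : ℂ) : Measurable fun z => G (a + s • z) := hG.comp (by fun_prop)

lemma enorm_sub_avg_le (hF : ContDiff ℝ 1 F) (a : Cm d) {δ : ℝ} (hδ : 0 < δ) :
    ‖F a - avg F δ a‖ₑ ≤ ∫⁻ t, ∫⁻ z, ENNReal.ofReal (4 * δ * t) *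
      VV F (a + ((t ^ 2 * δ : ℝ) : ℂ) • z) ∂(mu2 d) ∂mu1 := by
  have hm : ∀ t : ℝ, Measurable fun z : Cm d => ENNReal.ofReal (4 * δ * t) *
      VV F (a + ((t ^ 2 * δ : ℝ) : ℂ) • z) := fun t =>
    (measurable_shift (measurable_VV hF) _ _).const_mul _
  have h1 : F a - avg F δ a = -∫ t in (0 : ℝ)..1, (4 * δ * t) • ∫ z, chi z • ∑ j, conj (z j) *
        dzb j F (a + ((t ^ 2 * δ : ℝ) : ℂ) • z) := by
    have := rep hF a δ
    unfold avg
    linear_combination this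
  rw [h1, enorm_neg, intervalIntegral.integral_of_le zero_le_one]
  refine (enorm_integral_le_lintegral_enorm _).trans ?_
  unfold mu1
  refine setLIntegral_mono_ae' measurableSet_Ioc (ae_of_all _ fun t ht => ?_)
  rw [lintegral_mu2 (hm t), enorm_smul]
  have h2 : ‖4 * δ * t‖ₑ = ENNReal.ofReal (4 * δ * t) :=
    Real.enorm_of_nonneg (by have := ht.1; positivity)
  rw [h2]
  calc ENNReal.ofReal (4 * δ * t) * ‖∫ z, chi z • ∑ j, conj (z j) *
        dzb j F (a + ((t ^ 2 * δ : ℝ) : ℂ) • z)‖ₑ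
      ≤ ENNReal.ofReal (4 * δ * t) * ∫⁻ z, ENNReal.ofReal (chi z) *
        VV F (a + ((t ^ 2 * δ : ℝ) : ℂ) • z) := by
        gcongr
        refine (enorm_integral_le_lintegral_enorm _).trans (lintegral_mono fun z => ?_)
        simp only
        rw [enorm_smul, Real.enorm_of_nonneg (chi_nonneg z)]
        by_cases hz : ‖z‖ ≤ 1
        · gcongr
          unfold VV
          refine (enorm_sum_le _ _).trans (Finset.sum_le_sum fun j _ => ?_)
          rw [enorm_mul]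
          have h3 : ‖conj (z j)‖ₑ ≤ 1 := by
            rw [← ofReal_norm, RCLike.norm_conj]
            exact ENNReal.ofReal_le_one.2 ((norm_le_pi_norm z j).trans hz)
          calc ‖conj (z j)‖ₑ * ‖dzb j F (a + ((t ^ 2 * δ : ℝ) : ℂ) • z)‖ₑ
              ≤ 1 * ‖dzb j F (a + ((t ^ 2 * δ : ℝ) : ℂ) • z)‖ₑ := by gcongr
            _ = _ := one_mul _
        · rw [chi_off (not_le.1 hz).le]
          simp
    _ = ∫⁻ z, ENNReal.ofReal (chi z) * (ENNReal.ofReal (4 * δ * t) *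
        VV F (a + ((t ^ 2 * δ : ℝ) : ℂ) • z)) := by
        have hm2 : Measurable fun z => ENNReal.ofReal (chi z) *
            VV F (a + ((t ^ 2 * δ : ℝ) : ℂ) • z) :=
          measurable_chi'.mul (measurable_shift (measurable_VV hF) _ _)
        rw [← lintegral_const_mul _ hm2]
        refine lintegral_congr fun z => ?_
        ring

lemma enorm_sq_sub_avg_le (hF : ContDiff ℝ 1 F) (a : Cm d) {δ : ℝ} (hδ : 0 < δ) :
    ‖F a - avg F δ a‖ₑ ^ 2 ≤ ∫⁻ t, ∫⁻ z, (ENNReal.ofReal (4 * δ * t) *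
      VV F (a + ((t ^ 2 * δ : ℝ) : ℂ) • z)) ^ 2 ∂(mu2 d) ∂mu1 := by
  have hm : Measurable (Function.uncurry fun (t : ℝ) (z : Cm d) => ENNReal.ofReal (4 * δ * t) *
      VV F (a + ((t ^ 2 * δ : ℝ) : ℂ) • z)) := by
    refine Measurable.mul (by fun_prop) ((measurable_VV hF).comp ?_)
    have : Continuous fun q : ℝ × Cm d => a + ((q.1 ^ 2 * δ : ℝ) : ℂ) • q.2 := by fun_prop
    exact this.measurable
  have : SFinite (mu2 d) := inferInstance
  calc ‖F a - avg F δ a‖ₑ ^ 2 ≤ (∫⁻ t, ∫⁻ z, ENNReal.ofReal (4 * δ * t) *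
      VV F (a + ((t ^ 2 * δ : ℝ) : ℂ) • z) ∂(mu2 d) ∂mu1) ^ 2 := by
        gcongr; exact enorm_sub_avg_le hF a hδ
    _ ≤ ∫⁻ t, (∫⁻ z, ENNReal.ofReal (4 * δ * t) *
      VV F (a + ((t ^ 2 * δ : ℝ) : ℂ) • z) ∂(mu2 d)) ^ 2 ∂mu1 :=
        sq_lintegral_le _ hm.lintegral_prod_right.aemeasurable
    _ ≤ _ := by
        refine lintegral_mono fun t => ?_
        exact sq_lintegral_le _ (hm.comp measurable_prodMk_left).aemeasurable

/-- The weight on a small ball. -/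
lemma weight_bound {W : Cm d → ℝ≥0∞} (hW : Measurable W) {δ t : ℝ} (hδ : 0 < δ) (ht : t ∈ Ioc 0 1)
    (y : Cm d) : ENNReal.ofReal t ^ 2 * ∫⁻ z, W (y - ((t ^ 2 * δ : ℝ) : ℂ) • z) ∂(mu2 d) ≤
      ENNReal.ofReal ((∫ z : Cm d, eta z)⁻¹) * (volume (closedBall (0 : Cm d) 1) +
        ENNReal.ofReal ((δ ^ (2 * d))⁻¹) * ∫⁻ z, W z ^ (2 * d + 1)) := by
  have ht0 : 0 < t := ht.1
  have hm : Measurable fun z : Cm d => W (y - ((t ^ 2 * δ : ℝ) : ℂ) • z) := hW.comp (by fun_prop)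
  set lam : ℝ≥0∞ := ENNReal.ofReal ((t ^ 2)⁻¹) with hlam
  have hlam0 : lam ≠ 0 := by
    rw [hlam, ne_eq, ENNReal.ofReal_eq_zero, not_le]; positivity
  have hlamT : lam ≠ ⊤ := ENNReal.ofReal_ne_top
  have hinv : lam⁻¹ = ENNReal.ofReal t ^ 2 := by
    rw [hlam, ← ENNReal.ofReal_inv_of_pos (by positivity), inv_inv, ENNReal.ofReal_pow ht0.le]
  have h1 : ∫⁻ z, W (y - ((t ^ 2 * δ : ℝ) : ℂ) • z) ∂(mu2 d) ≤
      ENNReal.ofReal ((∫ z : Cm d, eta z)⁻¹) *
        ∫⁻ z in closedBall (0 : Cm d) 1, W (y - ((t ^ 2 * δ : ℝ) : ℂ) • z) := by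
    rw [lintegral_mu2 hm, ← lintegral_const_mul _ hm, ← lintegral_indicator measurableSet_closedBall]
    refine lintegral_mono fun z => ?_
    by_cases hz : z ∈ closedBall (0 : Cm d) 1
    · rw [indicator_of_mem hz]
      gcongr
      exact chi_le z
    · rw [mem_closedBall_zero_iff, not_le] at hz
      rw [chi_off hz.le]
      simp
  have h2 : ∫⁻ z in closedBall (0 : Cm d) 1, W (y - ((t ^ 2 * δ : ℝ) : ℂ) • z) ≤
      lam * volume (closedBall (0 : Cm d) 1) + lam⁻¹ ^ (2 * d) *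
        (ENNReal.ofReal (((t ^ 2 * δ) ^ (2 * d))⁻¹) * ∫⁻ z, W z ^ (2 * d + 1)) := by
    calc _ ≤ ∫⁻ z in closedBall (0 : Cm d) 1, (lam + lam⁻¹ ^ (2 * d) *
            W (y - ((t ^ 2 * δ : ℝ) : ℂ) • z) ^ (2 * d + 1)) :=
          lintegral_mono fun z => le_lam _ _ hlam0 hlamT _
      _ = lam * volume (closedBall (0 : Cm d) 1) + lam⁻¹ ^ (2 * d) *
            ∫⁻ z in closedBall (0 : Cm d) 1, W (y - ((t ^ 2 * δ : ℝ) : ℂ) • z) ^ (2 * d + 1) := by
          rw [lintegral_add_left measurable_const, setLIntegral_const,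
            lintegral_const_mul _ (hm.pow_const _)]
      _ ≤ _ := by
          gcongr
          rw [← lintegral_scale (hW.pow_const _) y (by positivity)]
          exact setLIntegral_le_lintegral _ _
  calc _ ≤ ENNReal.ofReal t ^ 2 * (ENNReal.ofReal ((∫ z : Cm d, eta z)⁻¹) *
        (lam * volume (closedBall (0 : Cm d) 1) + lam⁻¹ ^ (2 * d) *
        (ENNReal.ofReal (((t ^ 2 * δ) ^ (2 * d))⁻¹) * ∫⁻ z, W z ^ (2 * d + 1)))) := by
        gcongr
        exact h1.trans (by gcongr)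
    _ = ENNReal.ofReal ((∫ z : Cm d, eta z)⁻¹) * ((lam⁻¹ * lam) * volume (closedBall (0 : Cm d) 1) +
        lam⁻¹ * (lam⁻¹ ^ (2 * d) * ENNReal.ofReal (((t ^ 2 * δ) ^ (2 * d))⁻¹)) *
          ∫⁻ z, W z ^ (2 * d + 1)) := by
        rw [← hinv]; ring
    _ ≤ _ := by
        gcongr
        · rw [ENNReal.inv_mul_cancel hlam0 hlamT, one_mul]
        · have h3 : lam⁻¹ ^ (2 * d) * ENNReal.ofReal (((t ^ 2 * δ) ^ (2 * d))⁻¹) =
              ENNReal.ofReal ((δ ^ (2 * d))⁻¹) := by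
            rw [hinv, ← ENNReal.ofReal_pow ht0.le, ← ENNReal.ofReal_pow (by positivity),
              ← ENNReal.ofReal_mul (by positivity)]
            congr 1
            rw [mul_pow (t ^ 2) δ]
            field_simp
          rw [h3]
          calc lam⁻¹ * ENNReal.ofReal ((δ ^ (2 * d))⁻¹) ≤ 1 * ENNReal.ofReal ((δ ^ (2 * d))⁻¹) := by
                gcongr
                rw [hinv, ← ENNReal.ofReal_pow ht0.le]
                exact ENNReal.ofReal_le_one.2 (pow_le_one₀ ht0.le ht.2)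
            _ = _ := one_mul _

/-- the constant -/
def KK (d : ℕ) (δ : ℝ) (B : ℝ≥0∞) : ℝ≥0∞ := ENNReal.ofReal (4 * δ) ^ 2 *
  (ENNReal.ofReal ((∫ z : Cm d, eta z)⁻¹) * (volume (closedBall (0 : Cm d) 1) +
        ENNReal.ofReal ((δ ^ (2 * d))⁻¹) * B))

/-- the weighted estimate -/
theorem est (hF : ContDiff ℝ 1 F) {c : Cm d} {R δ : ℝ} (hδ : 0 < δ) (hδR : δ ≤ R)
    {W : Cm d → ℝ≥0∞} (hW : Measurable W) (hW0 : ∀ z ∉ closedBall c R, W z = 0) :
    ∫⁻ a, W a * ‖F a - avg F δ a‖ₑ ^ 2 ≤ KK d δ (∫⁻ z, W z ^ (2 * d + 1)) *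
      ∫⁻ y in closedBall c (2 * R), VV F y ^ 2 := by
  have hV := measurable_VV hF
  have hG : Measurable fun q : (Cm d × ℝ) × Cm d => W q.1.1 * (ENNReal.ofReal (4 * δ * q.1.2) *
      VV F (q.1.1 + ((q.1.2 ^ 2 * δ : ℝ) : ℂ) • q.2)) ^ 2 := by
    refine (hW.comp (by fun_prop)).mul (Measurable.pow_const (Measurable.mul (by fun_prop)
      (hV.comp ?_)) 2)
    have : Continuous fun q : (Cm d × ℝ) × Cm d => q.1.1 + ((q.1.2 ^ 2 * δ : ℝ) : ℂ) • q.2 := by
      fun_prop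
    exact this.measurable
  have hsf : SFinite (mu2 d) := inferInstance
  have hsf1 : SFinite mu1 := inferInstance
  have e1 : ∀ a, W a * ‖F a - avg F δ a‖ₑ ^ 2 ≤ ∫⁻ t, ∫⁻ z, W a * (ENNReal.ofReal (4 * δ * t) *
      VV F (a + ((t ^ 2 * δ : ℝ) : ℂ) • z)) ^ 2 ∂(mu2 d) ∂mu1 := by
    intro a
    refine (mul_le_mul_right (enorm_sq_sub_avg_le hF a hδ) _).trans ?_
    refine (lintegral_const_mul_le _ _).trans (lintegral_mono fun t => ?_)
    exact lintegral_const_mul_le _ _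
  have e2 : ∫⁻ a, ∫⁻ t, ∫⁻ z, W a * (ENNReal.ofReal (4 * δ * t) *
      VV F (a + ((t ^ 2 * δ : ℝ) : ℂ) • z)) ^ 2 ∂(mu2 d) ∂mu1 =
      ∫⁻ t, ∫⁻ z, (∫⁻ a, W a * (ENNReal.ofReal (4 * δ * t) *
      VV F (a + ((t ^ 2 * δ : ℝ) : ℂ) • z)) ^ 2) ∂(mu2 d) ∂mu1 := by
    rw [lintegral_lintegral_swap]
    · refine lintegral_congr fun t => ?_
      rw [lintegral_lintegral_swap]
      exact (hG.comp (f := fun q : Cm d × Cm d => ((q.1, t), q.2)) (by fun_prop)).aemeasurable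
    · exact (hG.lintegral_prod_right' (ν := mu2 d)).aemeasurable
  have hae : ∀ᵐ z ∂(mu2 d), ‖z‖ ≤ 1 := by
    unfold mu2
    rw [ae_withDensity_iff measurable_chi']
    refine ae_of_all _ fun z hz => ?_
    by_contra h
    exact hz (by rw [chi_off (not_le.1 h).le, ENNReal.ofReal_zero])
  have e3 : ∀ t ∈ Ioc (0 : ℝ) 1, ∀ z : Cm d, ‖z‖ ≤ 1 → ∫⁻ a, W a * (ENNReal.ofReal (4 * δ * t) *
      VV F (a + ((t ^ 2 * δ : ℝ) : ℂ) • z)) ^ 2 =
      ∫⁻ y in closedBall c (2 * R), W (y - ((t ^ 2 * δ : ℝ) : ℂ) • z) *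
        (ENNReal.ofReal (4 * δ * t) * VV F y) ^ 2 := by
    intro t ht z hz
    set v : Cm d := ((t ^ 2 * δ : ℝ) : ℂ) • z with hv
    have hvn : ‖v‖ ≤ R := by
      rw [hv, norm_smul, Complex.norm_real, Real.norm_of_nonneg (by have := ht.1; positivity)]
      have h1 : t ^ 2 ≤ 1 := pow_le_one₀ ht.1.le ht.2
      calc t ^ 2 * δ * ‖z‖ ≤ 1 * δ * 1 := by gcongr
        _ ≤ R := by linarith
    have h1 := lintegral_add_right_eq_self (μ := (volume : Measure (Cm d))) (fun y => W (y - v) *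
        (ENNReal.ofReal (4 * δ * t) * VV F y) ^ 2) v
    simp only [add_sub_cancel_right] at h1
    rw [h1]
    symm
    rw [← lintegral_indicator measurableSet_closedBall]
    refine lintegral_congr fun y => ?_
    by_cases hy : y ∈ closedBall c (2 * R)
    · rw [indicator_of_mem hy]
    · rw [indicator_of_notMem hy, hW0, zero_mul]
      intro h
      apply hy
      rw [mem_closedBall, dist_eq_norm] at h ⊢
      calc ‖y - c‖ = ‖(y - v - c) + v‖ := by congr 1; abel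
        _ ≤ ‖y - v - c‖ + ‖v‖ := norm_add_le _ _
        _ ≤ 2 * R := by linarith
  have e4 : ∀ t ∈ Ioc (0 : ℝ) 1, ∫⁻ z, (∫⁻ a, W a * (ENNReal.ofReal (4 * δ * t) *
      VV F (a + ((t ^ 2 * δ : ℝ) : ℂ) • z)) ^ 2) ∂(mu2 d) ≤ KK d δ (∫⁻ z, W z ^ (2 * d + 1)) *
      ∫⁻ y in closedBall c (2 * R), VV F y ^ 2 := by
    intro t ht
    rw [lintegral_congr_ae (hae.mono fun z hz => e3 t ht z hz), lintegral_lintegral_swap]
    · rw [← lintegral_const_mul _ (hV.pow_const 2)]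
      refine lintegral_mono fun y => ?_
      have hm : Measurable fun z : Cm d => W (y - ((t ^ 2 * δ : ℝ) : ℂ) • z) :=
        hW.comp (by fun_prop)
      rw [lintegral_mul_const _ hm]
      have h2 := weight_bound hW hδ ht y
      calc (∫⁻ z, W (y - ((t ^ 2 * δ : ℝ) : ℂ) • z) ∂(mu2 d)) *
            (ENNReal.ofReal (4 * δ * t) * VV F y) ^ 2 =
          ENNReal.ofReal (4 * δ) ^ 2 * (ENNReal.ofReal t ^ 2 *
            ∫⁻ z, W (y - ((t ^ 2 * δ : ℝ) : ℂ) • z) ∂(mu2 d)) * VV F y ^ 2 := by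
            rw [ENNReal.ofReal_mul (by positivity)]; ring
        _ ≤ _ := by
            unfold KK
            gcongr
    · refine Measurable.aemeasurable ?_
      refine Measurable.mul (hW.comp ?_) ((hV.comp measurable_snd).const_mul _ |>.pow_const 2)
      fun_prop
  calc ∫⁻ a, W a * ‖F a - avg F δ a‖ₑ ^ 2 ≤ _ := lintegral_mono e1
    _ = _ := e2
    _ ≤ ∫⁻ _, (KK d δ (∫⁻ z, W z ^ (2 * d + 1)) *
      ∫⁻ y in closedBall c (2 * R), VV F y ^ 2) ∂mu1 := by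
        unfold mu1
        exact setLIntegral_mono_ae' measurableSet_Ioc (ae_of_all _ fun t ht => e4 t ht)
    _ = _ := by rw [lintegral_const, measure_univ, mul_one]

end Vale.Agent.P301.H897
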