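import Vale.Agent.P268.Hol
import Vale.Agent.P272.K.INT.Wirt

/-!
# `∂̄ F = 0` implies analytic
-/

open scoped ContDiff Topology
open Vale.Agent.P272.K Vale.Agent.P272.K.INT

noncomputable section

namespace Vale.Agent.P301.H897

variable {d : ℕ}

theorem differentiableAt_of_dzb {F : Cm d → ℂ} {z : Cm d} (hF : DifferentiableAt ℝ F z)
    (h : ∀ l, dzb l F z = 0) : DifferentiableAt ℂ F z := by
  rw [differentiableAt_iff_restrictScalars ℝ hF]
  refine ⟨∑ j, (dz j F z) • (ContinuousLinearMap.proj j : Cm d →L[ℂ] ℂ), ?_⟩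
  ext v
  rw [fderiv_apply]
  simp [h, mul_comm]

theorem analyticAt_of_dzb {F : Cm d → ℂ} {z : Cm d}
    (h : ∀ᶠ y in 𝓝 z, DifferentiableAt ℝ F y ∧ ∀ l, dzb l F y = 0) : AnalyticAt ℂ F z := by
  obtain ⟨U, hU, hUo, hz⟩ := eventually_nhds_iff.1 h
  exact Vale.Agent.P268.analyticAt_of_differentiableOn hUo
    (fun y hy => (differentiableAt_of_dzb (hU y hy).1 (hU y hy).2).differentiableWithinAt) hz

end Vale.Agent.P301.H897
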