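import Vale.Agent.P301.H897.Conv
import Vale.Agent.P301.H897.Hol

/-!
# The local limit theorem
-/

open scoped ContDiff Topology ComplexConjugate ENNReal InnerProductSpace Convolution
open MeasureTheory Set Filter Metric

noncomputable section

namespace Vale.Agent.P301.H897

open Vale.Agent.P272.K Vale.Agent.P272.K.INT

variable {d : ℕ} {α : Type*}

lemma gk_lipschitz {δ : ℝ} (hδ : 0 < δ) :
    ∃ C : NNReal, LipschitzWith C (gk (d := d) δ) :=
  ((gk_contDiff δ).of_le (by norm_cast)).lipschitzWith_of_hasCompactSupport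
    (gk_hasCompactSupport hδ) one_ne_zero

lemma cv_sub_le {δ : ℝ} {C : NNReal} (hC : LipschitzWith C (gk (d := d) δ)) (hδ : 0 < δ)
    {K : Set (Cm d)} {f : Cm d → ℂ} (hf : IntegrableOn f K) {A : ℝ≥0∞} (hAt : A ≠ ⊤)
    (hA : ∫⁻ y in K, ‖f y‖ₑ ≤ A) (a b : Cm d) :
    ‖cv δ K f a - cv δ K f b‖ ≤ (A.toReal * C) * dist a b := by
  have hg : Continuous (gk (d := d) δ) := (gk_contDiff δ).continuous
  obtain ⟨M, hM⟩ := (gk_hasCompactSupport (d := d) hδ).exists_bound_of_continuous hg
  have hi : ∀ a, IntegrableOn (fun y => f y * gk δ (a - y)) K := by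
    intro a
    refine Integrable.mul_bdd (c := M) hf ?_ (ae_of_all _ fun y => hM _)
    exact (hg.comp (continuous_const.sub continuous_id)).aestronglyMeasurable
  have h1 : ‖cv δ K f a - cv δ K f b‖ₑ ≤ A * (C * edist a b) := by
    unfold cv
    rw [← integral_sub (hi a) (hi b)]
    refine (enorm_integral_le_lintegral_enorm _).trans ?_
    calc ∫⁻ y in K, ‖f y * gk δ (a - y) - f y * gk δ (b - y)‖ₑ
        ≤ ∫⁻ y in K, ‖f y‖ₑ * (C * edist a b) := by
          refine lintegral_mono fun y => ?_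
          rw [← mul_sub, enorm_mul]
          gcongr
          have := hC (a - y) (b - y)
          rwa [edist_sub_right, edist_eq_enorm_sub] at this
      _ = (∫⁻ y in K, ‖f y‖ₑ) * (C * edist a b) := by
          rw [lintegral_mul_const' _ _ (by finiteness)]
      _ ≤ _ := by gcongr
  have h2 := ENNReal.toReal_mono (by finiteness) h1
  rw [toReal_enorm, ENNReal.toReal_mul, ENNReal.toReal_mul, ENNReal.coe_toReal, edist_dist,
    ENNReal.toReal_ofReal dist_nonneg] at h2
  linarith

/-- pointwise convergence of an equicontinuous family is uniform on compact sets -/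
lemma unif_of_pointwise {l : Filter α} {K : Set (Cm d)} (hK : IsCompact K) {f : α → Cm d → ℂ}
    {g : Cm d → ℂ} {C : ℝ} (hC : 0 ≤ C) (hf : ∀ᶠ n in l, ∀ a ∈ K, ∀ b ∈ K, ‖f n a - f n b‖ ≤ C * dist a b)
    (hg : ∀ a ∈ K, ∀ b ∈ K, ‖g a - g b‖ ≤ C * dist a b)
    (h : ∀ a ∈ K, Tendsto (fun n => f n a) l (𝓝 (g a))) {ε : ℝ} (hε : 0 < ε) :
    ∀ᶠ n in l, ∀ a ∈ K, ‖f n a - g a‖ ≤ ε := by
  set r : ℝ := ε / (3 * (C + 1)) with hr
  have hr0 : 0 < r := by positivity
  obtain ⟨t, htK, ht⟩ := hK.elim_nhds_subcover (fun a => ball a r) (fun a _ => ball_mem_nhds a hr0)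
  have h1 : ∀ᶠ n in l, ∀ a ∈ t, ‖f n a - g a‖ ≤ ε / 3 := by
    rw [Filter.eventually_all_finset]
    intro a ha
    have h2 := (tendsto_iff_norm_sub_tendsto_zero.1 (h a (htK a ha)))
    filter_upwards [h2.eventually (ge_mem_nhds (show (0 : ℝ) < ε / 3 by positivity))] with n hn using hn
  filter_upwards [h1, hf] with n hn hfn a ha
  obtain ⟨b, hb, hab⟩ := mem_iUnion₂.1 (ht ha)
  have hab' : dist a b < r := hab
  have hCr : C * dist a b ≤ ε / 3 := by
    calc C * dist a b ≤ (C + 1) * r := by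
          have := dist_nonneg (x := a) (y := b)
          nlinarith
      _ = ε / 3 := by rw [hr]; field_simp
  calc ‖f n a - g a‖ = ‖(f n a - f n b) + (f n b - g b) + (g b - g a)‖ := by congr 1; ring
    _ ≤ ‖f n a - f n b‖ + ‖f n b - g b‖ + ‖g b - g a‖ :=
        (norm_add_le _ _).trans (by gcongr; exact norm_add_le _ _)
    _ ≤ C * dist a b + ε / 3 + C * dist a b := by
        gcongr
        · exact hfn a ha b (htK b hb)
        · exact hn b hb
        · rw [dist_comm a b]; exact hg b (htK b hb) a ha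
    _ ≤ ε := by linarith

variable {F : Cm d → ℂ}

lemma hasFDerivAt_avg (hF : ContDiff ℝ 1 F) (hc : HasCompactSupport F) (δ : ℝ) (a : Cm d) :
    HasFDerivAt (avg F δ) (∫ z, chi z • fderiv ℝ F (a + (δ : ℂ) • z)) a := by
  have hF' : Continuous (fderiv ℝ F) := hF.continuous_fderiv one_ne_zero
  obtain ⟨C, hC⟩ := (hc.fderiv (𝕜 := ℝ)).exists_bound_of_continuous hF'
  refine hasFDerivAt_integral_of_dominated_of_fderiv_le
    (F := fun a z => chi z • F (a + (δ : ℂ) • z)) (F' := fun a z => chi z • fderiv ℝ F (a + (δ : ℂ) • z))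
    (s := univ) (bound := fun z => chi z * C)
    univ_mem ?_ ?_ ?_ ?_ (chi_integrable.mul_const C) ?_
  · exact Eventually.of_forall fun b => (chi_continuous.smul (hF.continuous.comp
      (continuous_const.add (continuous_const_smul _)))).aestronglyMeasurable
  · exact integrable_chi (hF.continuous.comp (continuous_const.add (continuous_const_smul _)))
  · exact (chi_continuous.smul (hF'.comp
      (continuous_const.add (continuous_const_smul _)))).aestronglyMeasurable
  · refine ae_of_all _ fun z b _ => ?_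
    rw [norm_smul, Real.norm_of_nonneg (chi_nonneg z)]
    exact mul_le_mul_of_nonneg_left (hC _) (chi_nonneg z)
  · refine ae_of_all _ fun z b _ => ?_
    have h1 : HasFDerivAt F (fderiv ℝ F (b + (δ : ℂ) • z)) (b + (δ : ℂ) • z) :=
      (hF.differentiable one_ne_zero _).hasFDerivAt
    have h2 : HasFDerivAt (fun x => F (x + (δ : ℂ) • z)) (fderiv ℝ F (b + (δ : ℂ) • z)) b := by
      rwa [hasFDerivAt_comp_add_right]
    exact h2.const_smul (chi z)

lemma fderiv_avg (hF : ContDiff ℝ 1 F) (hc : HasCompactSupport F) (δ : ℝ) (a v : Cm d) :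
    fderiv ℝ (avg F δ) a v = ∫ z, chi z • fderiv ℝ F (a + (δ : ℂ) • z) v := by
  have hF' : Continuous (fderiv ℝ F) := hF.continuous_fderiv one_ne_zero
  obtain ⟨C, hC⟩ := (hc.fderiv (𝕜 := ℝ)).exists_bound_of_continuous hF'
  have hint : Integrable fun z : Cm d => chi z • fderiv ℝ F (a + (δ : ℂ) • z) := by
    refine (chi_integrable.mul_const C).mono' ?_ (ae_of_all _ fun z => ?_)
    · exact (chi_continuous.smul (hF'.comp
        (continuous_const.add (continuous_const_smul _)))).aestronglyMeasurable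
    · rw [norm_smul, Real.norm_of_nonneg (chi_nonneg z)]
      exact mul_le_mul_of_nonneg_left (hC _) (chi_nonneg z)
  rw [(hasFDerivAt_avg hF hc δ a).fderiv]
  have := ContinuousLinearMap.integral_apply hint v
  rw [this]
  rfl

lemma dzb_avg (hF : ContDiff ℝ 1 F) (hc : HasCompactSupport F) (δ : ℝ) (a : Cm d) (j : Fin d) :
    dzb j (avg F δ) a = ∫ z, chi z • dzb j F (a + (δ : ℂ) • z) := by
  have hF' : Continuous (fderiv ℝ F) := hF.continuous_fderiv one_ne_zero
  have hi : ∀ v : Cm d, Integrable fun z : Cm d => chi z • fderiv ℝ F (a + (δ : ℂ) • z) v :=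
    fun v => integrable_chi ((hF'.comp (continuous_const.add
      (continuous_const_smul _))).clm_apply continuous_const)
  rw [dzb, fderiv_avg hF hc, fderiv_avg hF hc, ← integral_const_mul, ← integral_add (hi _)
    ((hi _).const_mul _), ← integral_div]
  refine integral_congr_ae (ae_of_all _ fun z => ?_)
  simp only [dzb, Complex.real_smul]
  ring

lemma lintegral_scale' {f : Cm d → ℝ≥0∞} (hf : Measurable f) (y : Cm d) {s : ℝ} (hs : 0 < s) :
    ∫⁻ z, f (y + (s : ℂ) • z) = ENNReal.ofReal ((s ^ (2 * d))⁻¹) * ∫⁻ z, f z := by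
  have h1 : ∫⁻ z, f (y + (s : ℂ) • z) =
      ∫⁻ z, f (y + z) ∂(Measure.map (fun z : Cm d => s • z) volume) := by
    rw [lintegral_map (f := fun z => f (y + z)) (hf.comp (by fun_prop)) (measurable_const_smul s)]
    rfl
  rw [h1, Measure.map_addHaar_smul _ hs.ne', lintegral_smul_measure, finrank_Cm,
    lintegral_add_left_eq_self f y, abs_of_pos (by positivity), smul_eq_mul]

lemma enorm_avg_sq_le {c : Cm d} {R δ : ℝ} (hδ : 0 < δ) {u : Cm d → ℂ} (hu : Measurable u)
    {a : Cm d} (ha : a ∈ closedBall c (R - δ)) :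
    ‖∫ z, chi z • u (a + (δ : ℂ) • z)‖ₑ ^ 2 ≤ ENNReal.ofReal ((∫ z : Cm d, eta z)⁻¹) *
      (ENNReal.ofReal ((δ ^ (2 * d))⁻¹) * ∫⁻ y in closedBall c R, ‖u y‖ₑ ^ 2) := by
  have hm : Measurable fun z => ‖u (a + (δ : ℂ) • z)‖ₑ := (measurable_shift hu a δ).enorm
  calc ‖∫ z, chi z • u (a + (δ : ℂ) • z)‖ₑ ^ 2
      ≤ (∫⁻ z, ‖u (a + (δ : ℂ) • z)‖ₑ ∂(mu2 d)) ^ 2 := by
        gcongr
        rw [lintegral_mu2 hm]
        refine (enorm_integral_le_lintegral_enorm _).trans (lintegral_mono fun z => ?_)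
        simp only
        rw [enorm_smul, Real.enorm_of_nonneg (chi_nonneg z)]
    _ ≤ ∫⁻ z, ‖u (a + (δ : ℂ) • z)‖ₑ ^ 2 ∂(mu2 d) := sq_lintegral_le _ hm.aemeasurable
    _ = ∫⁻ z, ENNReal.ofReal (chi z) * ‖u (a + (δ : ℂ) • z)‖ₑ ^ 2 := lintegral_mu2 (hm.pow_const 2)
    _ ≤ ∫⁻ z, ENNReal.ofReal ((∫ z : Cm d, eta z)⁻¹) *
          (closedBall c R).indicator (fun y => ‖u y‖ₑ ^ 2) (a + (δ : ℂ) • z) := by
        refine lintegral_mono fun z => ?_
        simp only
        by_cases hz : ‖z‖ ≤ 1
        · have h1 : a + (δ : ℂ) • z ∈ closedBall c R := by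
            rw [mem_closedBall, dist_eq_norm] at ha ⊢
            calc ‖a + (δ : ℂ) • z - c‖ = ‖(a - c) + (δ : ℂ) • z‖ := by congr 1; abel
              _ ≤ ‖a - c‖ + ‖(δ : ℂ) • z‖ := norm_add_le _ _
              _ ≤ (R - δ) + δ * 1 := by
                  rw [norm_smul, Complex.norm_real, Real.norm_of_nonneg hδ.le]
                  gcongr
              _ = R := by ring
          rw [indicator_of_mem h1]
          gcongr
          exact chi_le z
        · rw [chi_off (not_le.1 hz).le]
          simp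
    _ = _ := by
        have h2 : Measurable ((closedBall c R).indicator fun y => ‖u y‖ₑ ^ 2) :=
          (hu.enorm.pow_const 2).indicator measurableSet_closedBall
        rw [lintegral_const_mul _ (measurable_shift h2 a δ), lintegral_scale' h2 a hδ,
          lintegral_indicator measurableSet_closedBall]

lemma VV_sq_le (F : Cm d → ℂ) (y : Cm d) : VV F y ^ 2 ≤ d * ∑ j, ‖dzb j F y‖ₑ ^ 2 := by
  have h := ENNReal.rpow_sum_le_const_mul_sum_rpow (Finset.univ) (fun j => ‖dzb j F y‖ₑ)
    (p := 2) one_le_two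
  norm_num at h
  unfold VV
  exact h

/-- a global `C¹` function with compact support which agrees with `F` near a closed ball -/
lemma exists_global {c : Cm d} {R : ℝ} (hR : 0 < R) {F : Cm d → ℂ}
    (hF : ∀ z ∈ closedBall c R, ContDiffAt ℝ 1 F z) :
    ∃ G : Cm d → ℂ, ContDiff ℝ 1 G ∧ HasCompactSupport G ∧ ∀ z ∈ closedBall c R, G =ᶠ[𝓝 z] F := by
  have ho : IsOpen {z | ContDiffAt ℝ 1 F z} := by
    rw [isOpen_iff_mem_nhds]
    intro z hz
    exact ContDiffAt.eventually hz (by simp)
  obtain ⟨ε, hε, hsub⟩ := (isCompact_closedBall c R).exists_cthickening_subset_open ho hF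
  rw [cthickening_closedBall hε.le hR.le] at hsub
  let b : ContDiffBump c := ⟨R + ε / 2, R + ε, by positivity, by linarith⟩
  refine ⟨fun z => (b z : ℂ) * F z, ?_, ?_, ?_⟩
  · rw [contDiff_iff_contDiffAt]
    intro z
    by_cases hz : z ∈ closedBall c (R + ε)
    · have h1 : ContDiffAt ℝ 1 (fun z => (b z : ℂ)) z :=
        Complex.ofRealCLM.contDiff.contDiffAt.comp z b.contDiffAt
      exact h1.mul (hsub (by rwa [add_comm] at hz))
    · have h2 : (fun z => (b z : ℂ) * F z) =ᶠ[𝓝 z] fun _ => 0 := by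
        filter_upwards [isClosed_closedBall.isOpen_compl.mem_nhds hz] with w hw
        have : b w = 0 := by
          have h3 : w ∉ Function.support b := by
            rw [b.support_eq]
            exact fun h => hw (ball_subset_closedBall h)
          simpa using h3
        rw [this]; simp
      exact contDiffAt_const.congr_of_eventuallyEq h2
  · refine HasCompactSupport.mul_right ?_
    refine (b.hasCompactSupport).comp_left (g := fun x : ℝ => (x : ℂ)) (by simp)
  · intro z hz
    have hz' : ball c (R + ε / 2) ∈ 𝓝 z := by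
      refine isOpen_ball.mem_nhds ?_
      rw [mem_closedBall] at hz
      rw [mem_ball]; linarith
    filter_upwards [hz'] with w hw
    rw [b.one_of_mem_closedBall (ball_subset_closedBall hw)]
    simp

end Vale.Agent.P301.H897
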