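import Vale.Agent.P301.H897.Loc

/-!
# The local limit theorem
-/

open scoped ContDiff Topology ComplexConjugate ENNReal
open MeasureTheory Set Filter Metric

noncomputable section

namespace Vale.Agent.P301.H897

open Vale.Agent.P272.K Vale.Agent.P272.K.INT

variable {d : ℕ} {α : Type*}

lemma add_sq_le' (a b : ℝ≥0∞) : (a + b) ^ 2 ≤ 4 * (a ^ 2 + b ^ 2) := by
  rcases le_total a b with h | h
  · calc (a + b) ^ 2 ≤ (b + b) ^ 2 := by gcongr
      _ = 4 * b ^ 2 := by ring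
      _ ≤ _ := by gcongr; exact le_add_self
  · calc (a + b) ^ 2 ≤ (a + a) ^ 2 := by gcongr
      _ = 4 * a ^ 2 := by ring
      _ ≤ _ := by gcongr; exact le_self_add

lemma KK_mono {δ : ℝ} {B B' : ℝ≥0∞} (h : B ≤ B') : KK d δ B ≤ KK d δ B' := by
  unfold KK; gcongr

lemma KK_ne_top {δ : ℝ} {B : ℝ≥0∞} (h : B ≠ ⊤) : KK d δ B ≠ ⊤ := by
  unfold KK
  have h1 : volume (closedBall (0 : Cm d) 1) ≠ ⊤ := (isCompact_closedBall (0 : Cm d) 1).measure_ne_top
  finiteness

/-- The local limit theorem. -/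
theorem loc_lim {c : Cm d} {R : ℝ} (hR : 0 < R) (l : Ultrafilter α) (F : α → Cm d → ℂ)
    (hF : ∀ n, ∀ z ∈ closedBall c (2 * R), ContDiffAt ℝ 1 (F n) z)
    {A : ℝ≥0∞} (hAt : A ≠ ⊤)
    (hA : ∀ᶠ n in (l : Filter α), ∫⁻ z in closedBall c (2 * R), ‖F n z‖ₑ ^ 2 ≤ A)
    (hdb : ∀ j, Tendsto (fun n => ∫⁻ z in closedBall c (2 * R), ‖dzb j (F n) z‖ₑ ^ 2) l (𝓝 0)) :
    ∃ G : Cm d → ℂ, (∀ z ∈ closedBall c R, AnalyticAt ℂ G z) ∧
      ∀ W : α → Cm d → ℝ≥0∞, (∀ n, AEMeasurable (W n) (volume.restrict (closedBall c R))) →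
        ∀ B : ℝ≥0∞, B ≠ ⊤ →
        (∀ᶠ n in (l : Filter α), ∫⁻ z in closedBall c R, W n z ^ (2 * d + 1) ≤ B) →
        Tendsto (fun n => ∫⁻ z in closedBall c R, W n z * ‖F n z - G z‖ₑ ^ 2) l (𝓝 0) := by
  classical
  set K' : Set (Cm d) := closedBall c (2 * R) with hK'
  have hK'c : IsCompact K' := isCompact_closedBall _ _
  have hK'm : MeasurableSet K' := measurableSet_closedBall
  have hvK' : volume K' ≠ ⊤ := hK'c.measure_ne_top
  choose Ft hFt1 hFt2 hFt3 using fun n => exists_global (c := c) (R := 2 * R) (by positivity) (hF n)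
  have heq : ∀ n, ∀ z ∈ K', Ft n z = F n z := fun n z hz => (hFt3 n z hz).self_of_nhds
  have hdeq : ∀ n, ∀ z ∈ K', ∀ j, dzb j (Ft n) z = dzb j (F n) z :=
    fun n z hz j => dzb_congr (hFt3 n z hz)
  have hA' : ∀ᶠ n in (l : Filter α), ∫⁻ z in K', ‖Ft n z‖ₑ ^ 2 ≤ A := by
    filter_upwards [hA] with n hn
    refine le_of_eq_of_le (setLIntegral_congr_fun hK'm fun z hz => ?_) hn
    show ‖Ft n z‖ₑ ^ 2 = ‖F n z‖ₑ ^ 2
    rw [heq n z hz]
  have hdb' : ∀ j, Tendsto (fun n => ∫⁻ z in K', ‖dzb j (Ft n) z‖ₑ ^ 2) l (𝓝 0) := by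
    intro j
    refine (hdb j).congr fun n => setLIntegral_congr_fun hK'm fun z hz => ?_
    show ‖dzb j (F n) z‖ₑ ^ 2 = ‖dzb j (Ft n) z‖ₑ ^ 2
    rw [hdeq n z hz]
  obtain ⟨Fi, hFi, hwk⟩ := exists_weak_L2 hK'c l Ft
    (fun n => (hFt1 n).continuous.aestronglyMeasurable) A hAt hA'
  have hfin : IsFiniteMeasure (volume.restrict K' : Measure (Cm d)) := ⟨by
    rw [Measure.restrict_apply_univ]; exact hK'c.measure_lt_top⟩
  have hFi1 : IntegrableOn Fi K' := hFi.integrable one_le_two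
  have hFt1' : ∀ n, IntegrableOn (Ft n) K' := fun n =>
    (hFt1 n).continuous.continuousOn.integrableOn_compact hK'c
  set δ : ℝ := R / 2 with hδdef
  have hδ : 0 < δ := by positivity
  set G : Cm d → ℂ := cv δ K' Fi with hG
  have hgk : Continuous (gk (d := d) δ) := (gk_contDiff δ).continuous
  have hgk' : Continuous (fderiv ℝ (gk (d := d) δ)) :=
    (gk_contDiff δ).continuous_fderiv (by simp)
  -- pointwise convergence
  have hpt : ∀ a, Tendsto (fun n => cv δ K' (Ft n) a) l (𝓝 (G a)) := by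
    intro a
    have h1 := hwk (fun y => gk δ (a - y)) (hgk.comp (continuous_const.sub continuous_id))
    simp only [hG, cv]
    simp_rw [mul_comm _ (gk δ _)]
    exact h1
  have hdpt : ∀ a v, Tendsto (fun n => fderiv ℝ (cv δ K' (Ft n)) a v) l (𝓝 (fderiv ℝ G a v)) := by
    intro a v
    have h1 := hwk (fun y => fderiv ℝ (gk δ) (a - y) v)
      ((hgk'.comp (continuous_const.sub continuous_id)).clm_apply continuous_const)
    rw [(cv_hasFDerivAt hδ hK'm hFi1 a).2 v]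
    refine h1.congr fun n => ?_
    rw [(cv_hasFDerivAt hδ hK'm (hFt1' n) a).2 v]
  have hbpt : ∀ a j, Tendsto (fun n => dzb j (cv δ K' (Ft n)) a) l (𝓝 (dzb j G a)) := by
    intro a j
    unfold dzb
    exact ((hdpt a _).add ((hdpt a _).const_mul _)).div_const _
  -- `∂̄` of the averages tends to zero
  have hcvavg : ∀ n, ∀ a ∈ ball c (2 * R - δ), cv δ K' (Ft n) =ᶠ[𝓝 a] avg (Ft n) δ := by
    intro n a ha
    filter_upwards [isOpen_ball.mem_nhds ha] with b hb
    exact (avg_eq_cv hδ (Ft n) (ball_subset_closedBall hb)).symm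
  have hz : ∀ a ∈ ball c (2 * R - δ), ∀ j, dzb j G a = 0 := by
    intro a ha j
    refine tendsto_nhds_unique (hbpt a j) ?_
    have h1 : ∀ n, ‖dzb j (cv δ K' (Ft n)) a‖ₑ ^ 2 ≤ ENNReal.ofReal ((∫ z : Cm d, eta z)⁻¹) *
        (ENNReal.ofReal ((δ ^ (2 * d))⁻¹) * ∫⁻ y in K', ‖dzb j (Ft n) y‖ₑ ^ 2) := by
      intro n
      rw [dzb_congr (hcvavg n a ha), dzb_avg (hFt1 n) (hFt2 n)]
      exact enorm_avg_sq_le hδ (continuous_dzb (hFt1 n) j).measurable (ball_subset_closedBall ha)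
    have h2 : Tendsto (fun n => ENNReal.ofReal ((∫ z : Cm d, eta z)⁻¹) *
        (ENNReal.ofReal ((δ ^ (2 * d))⁻¹) * ∫⁻ y in K', ‖dzb j (Ft n) y‖ₑ ^ 2)) l (𝓝 0) := by
      have h3 := ENNReal.Tendsto.const_mul (a := ENNReal.ofReal ((∫ z : Cm d, eta z)⁻¹))
        (ENNReal.Tendsto.const_mul (a := ENNReal.ofReal ((δ ^ (2 * d))⁻¹)) (hdb' j)
          (Or.inr ENNReal.ofReal_ne_top)) (Or.inr ENNReal.ofReal_ne_top)
      simpa using h3
    have h4 : Tendsto (fun n => ‖dzb j (cv δ K' (Ft n)) a‖ₑ ^ 2) l (𝓝 0) :=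
      tendsto_of_tendsto_of_tendsto_of_le_of_le tendsto_const_nhds h2 (fun _ => zero_le) h1
    have h5 : Tendsto (fun n => ‖dzb j (cv δ K' (Ft n)) a‖ ^ 2) l (𝓝 0) := by
      have h6 := (ENNReal.tendsto_toReal ENNReal.zero_ne_top).comp h4
      simpa [Function.comp_def] using h6
    rw [tendsto_zero_iff_norm_tendsto_zero]
    have h7 := (Real.continuous_sqrt.tendsto _).comp h5
    simpa [Function.comp_def, Real.sqrt_sq] using h7
  have han : ∀ z ∈ closedBall c R, AnalyticAt ℂ G z := by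
    intro z hzR
    have h1 : ball c (2 * R - δ) ∈ 𝓝 z := by
      refine isOpen_ball.mem_nhds ?_
      rw [mem_closedBall] at hzR
      rw [mem_ball]
      linarith
    refine analyticAt_of_dzb ?_
    filter_upwards [h1] with w hw
    exact ⟨(cv_hasFDerivAt hδ hK'm hFi1 w).1.differentiableAt, hz w hw⟩
  refine ⟨G, han, fun W hW B hB hWB => ?_⟩
  set K : Set (Cm d) := closedBall c R with hK
  have hKm : MeasurableSet K := measurableSet_closedBall
  have hKK' : K ⊆ K' := closedBall_subset_closedBall (by linarith)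
  have hKδ : K ⊆ closedBall c (2 * R - δ) := closedBall_subset_closedBall (by linarith)
  -- uniform convergence
  obtain ⟨C, hC⟩ := gk_lipschitz (d := d) hδ
  have hA1 : ∀ᶠ n in (l : Filter α), ∫⁻ y in K', ‖Ft n y‖ₑ ≤ volume K' + A := by
    filter_upwards [hA'] with n hn
    calc ∫⁻ y in K', ‖Ft n y‖ₑ ≤ ∫⁻ y in K', (1 + ‖Ft n y‖ₑ ^ 2) := by
          refine lintegral_mono fun y => ?_
          have := le_lam ‖Ft n y‖ₑ 1 one_ne_zero ENNReal.one_ne_top 1
          simpa using this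
      _ = volume K' + ∫⁻ y in K', ‖Ft n y‖ₑ ^ 2 := by
          rw [lintegral_add_left measurable_const]; simp
      _ ≤ _ := by gcongr
  have hLip : ∀ᶠ n in (l : Filter α), ∀ a ∈ K, ∀ b ∈ K, ‖cv δ K' (Ft n) a - cv δ K' (Ft n) b‖ ≤
      ((volume K' + A).toReal * C) * dist a b := by
    filter_upwards [hA1] with n hn a _ b _
    exact cv_sub_le hC hδ (hFt1' n) (by finiteness) hn a b
  have hLipG : ∀ a ∈ K, ∀ b ∈ K, ‖G a - G b‖ ≤ ((volume K' + A).toReal * C) * dist a b := by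
    intro a ha b hb
    refine le_of_tendsto ((hpt a).sub (hpt b)).norm ?_
    filter_upwards [hLip] with n hn using hn a ha b hb
  have hunif : ∀ ε : ℝ, 0 < ε → ∀ᶠ n in (l : Filter α), ∀ a ∈ K,
      ‖cv δ K' (Ft n) a - G a‖ ≤ ε := fun ε hε =>
    unif_of_pointwise (isCompact_closedBall _ _) (by positivity) hLip hLipG (fun a _ => hpt a) hε
  -- the first term
  have hest : ∀ᶠ n in (l : Filter α), ∫⁻ a in K, W n a * ‖Ft n a - avg (Ft n) δ a‖ₑ ^ 2 ≤
      KK d δ B * ∫⁻ y in K', VV (Ft n) y ^ 2 := by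
    filter_upwards [hWB] with n hn
    set W' : Cm d → ℝ≥0∞ := K.indicator ((hW n).mk (W n)) with hW'
    have hW'm : Measurable W' := (hW n).measurable_mk.indicator hKm
    have hmk : W n =ᵐ[volume.restrict K] (hW n).mk (W n) := (hW n).ae_eq_mk
    have h1 := est (hFt1 n) (c := c) (R := R) hδ (by linarith) hW'm
      (fun z hz => indicator_of_notMem hz _)
    have h2 : ∫⁻ z, W' z ^ (2 * d + 1) = ∫⁻ z in K, W n z ^ (2 * d + 1) := by
      rw [← lintegral_indicator hKm]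
      have h3 : ∀ z, W' z ^ (2 * d + 1) =
          K.indicator (fun z => (hW n).mk (W n) z ^ (2 * d + 1)) z := by
        intro z
        by_cases hz : z ∈ K
        · rw [hW', indicator_of_mem hz, indicator_of_mem hz]
        · rw [hW', indicator_of_notMem hz, indicator_of_notMem hz, zero_pow (by positivity)]
      simp_rw [h3]
      rw [lintegral_indicator hKm, lintegral_indicator hKm]
      refine lintegral_congr_ae ?_
      filter_upwards [hmk] with z hz
      rw [hz]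
    have h4 : ∫⁻ a, W' a * ‖Ft n a - avg (Ft n) δ a‖ₑ ^ 2 =
        ∫⁻ a in K, W n a * ‖Ft n a - avg (Ft n) δ a‖ₑ ^ 2 := by
      have h3 : ∀ z, W' z * ‖Ft n z - avg (Ft n) δ z‖ₑ ^ 2 =
          K.indicator (fun z => (hW n).mk (W n) z * ‖Ft n z - avg (Ft n) δ z‖ₑ ^ 2) z := by
        intro z
        by_cases hz : z ∈ K
        · rw [hW', indicator_of_mem hz, indicator_of_mem hz]
        · rw [hW', indicator_of_notMem hz, indicator_of_notMem hz, zero_mul]
      simp_rw [h3]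
      rw [lintegral_indicator hKm]
      refine lintegral_congr_ae ?_
      filter_upwards [hmk] with z hz
      rw [hz]
    rw [← h4]
    refine h1.trans ?_
    rw [h2]
    gcongr
    exact KK_mono hn
  have hVV : Tendsto (fun n => KK d δ B * ∫⁻ y in K', VV (Ft n) y ^ 2) l (𝓝 0) := by
    have h1 : ∀ n, ∫⁻ y in K', VV (Ft n) y ^ 2 ≤ d * ∑ j, ∫⁻ y in K', ‖dzb j (Ft n) y‖ₑ ^ 2 := by
      intro n
      calc ∫⁻ y in K', VV (Ft n) y ^ 2 ≤ ∫⁻ y in K', d * ∑ j, ‖dzb j (Ft n) y‖ₑ ^ 2 :=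
            lintegral_mono fun y => VV_sq_le _ _
        _ = _ := by
            rw [lintegral_const_mul' _ _ (by finiteness), lintegral_finsetSum]
            exact fun j _ => (continuous_dzb (hFt1 n) j).measurable.enorm.pow_const 2
    have h2 : Tendsto (fun n => (d : ℝ≥0∞) * ∑ j, ∫⁻ y in K', ‖dzb j (Ft n) y‖ₑ ^ 2) l (𝓝 0) := by
      have h3 := ENNReal.Tendsto.const_mul (a := (d : ℝ≥0∞))
        (tendsto_finsetSum (Finset.univ) fun j _ => hdb' j) (Or.inr (by finiteness))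
      simpa using h3
    have h4 : Tendsto (fun n => ∫⁻ y in K', VV (Ft n) y ^ 2) l (𝓝 0) :=
      tendsto_of_tendsto_of_tendsto_of_le_of_le tendsto_const_nhds h2 (fun _ => zero_le) h1
    have h5 := ENNReal.Tendsto.const_mul (a := KK d δ B) h4 (Or.inr (KK_ne_top hB))
    simpa using h5
  -- the integral of the weights
  have hWint : ∀ᶠ n in (l : Filter α), ∫⁻ z in K, W n z ≤ volume K + B := by
    filter_upwards [hWB] with n hn
    calc ∫⁻ z in K, W n z ≤ ∫⁻ z in K, (1 + W n z ^ (2 * d + 1)) := by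
          refine lintegral_mono fun y => ?_
          have := le_lam (W n y) 1 one_ne_zero ENNReal.one_ne_top (2 * d)
          simpa using this
      _ = volume K + ∫⁻ z in K, W n z ^ (2 * d + 1) := by
          rw [lintegral_add_left measurable_const]; simp
      _ ≤ _ := by gcongr
  rw [ENNReal.tendsto_nhds_zero]
  intro ε hε
  -- choose the uniform bound
  obtain ⟨t, ht0, ht⟩ : ∃ t : ℝ, 0 < t ∧ 4 * (ENNReal.ofReal t ^ 2 * (volume K + B)) ≤ ε / 2 := by
    have hvK : volume K ≠ ⊤ := (isCompact_closedBall _ _).measure_ne_top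
    have h1 : Tendsto (fun t : ℝ => 4 * (ENNReal.ofReal t ^ 2 * (volume K + B))) (𝓝[>] 0) (𝓝 0) := by
      have h2 : Tendsto (fun t : ℝ => ENNReal.ofReal t) (𝓝[>] 0) (𝓝 0) := by
        have := (ENNReal.continuous_ofReal.tendsto (0 : ℝ)).mono_left
          (nhdsWithin_le_nhds (s := Ioi 0))
        simpa using this
      have h3 := ENNReal.Tendsto.const_mul (a := 4) (ENNReal.Tendsto.mul_const
        (b := volume K + B) (ENNReal.Tendsto.pow (n := 2) h2) (Or.inr (by finiteness))) (Or.inr (by finiteness))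
      simpa using h3
    have h4 : (0 : ℝ≥0∞) < ε / 2 := ENNReal.half_pos hε.ne'
    obtain ⟨t, h5, h6⟩ := ((h1.eventually (ge_mem_nhds h4)).and self_mem_nhdsWithin).exists
    exact ⟨t, h6, h5⟩
  have h8 : Tendsto (fun n => 4 * (KK d δ B * ∫⁻ y in K', VV (Ft n) y ^ 2)) l (𝓝 0) := by
    have := ENNReal.Tendsto.const_mul (a := 4) hVV (Or.inr (by finiteness))
    simpa using this
  have h9 := (ENNReal.tendsto_nhds_zero.1 h8) (ε / 2) (ENNReal.half_pos hε.ne')
  filter_upwards [hunif t ht0, hest, hWint, h9] with n hn1 hn2 hn3 hn4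
  have hcont : Continuous (avg (Ft n) δ) := by
    rw [continuous_iff_continuousAt]
    exact fun a => (hasFDerivAt_avg (hFt1 n) (hFt2 n) δ a).continuousAt
  have hm : AEMeasurable (fun a => W n a * ‖Ft n a - avg (Ft n) δ a‖ₑ ^ 2) (volume.restrict K) :=
    (hW n).mul (((hFt1 n).continuous.sub hcont).measurable.enorm.pow_const 2).aemeasurable
  calc ∫⁻ z in K, W n z * ‖F n z - G z‖ₑ ^ 2
      ≤ ∫⁻ z in K, 4 * (W n z * ‖Ft n z - avg (Ft n) δ z‖ₑ ^ 2 +
          ENNReal.ofReal t ^ 2 * W n z) := by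
        refine setLIntegral_mono_ae' hKm (ae_of_all _ fun z hz => ?_)
        have h10 : ‖F n z - G z‖ₑ ^ 2 ≤ 4 * (‖Ft n z - avg (Ft n) δ z‖ₑ ^ 2 +
            ENNReal.ofReal t ^ 2) := by
          have h11 : ‖avg (Ft n) δ z - G z‖ₑ ≤ ENNReal.ofReal t := by
            rw [avg_eq_cv hδ (Ft n) (hKδ hz), ← ofReal_norm]
            exact ENNReal.ofReal_le_ofReal (hn1 z hz)
          calc ‖F n z - G z‖ₑ ^ 2 =
              ‖(Ft n z - avg (Ft n) δ z) + (avg (Ft n) δ z - G z)‖ₑ ^ 2 := by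
                rw [← heq n z (hKK' hz)]; congr 2; ring
            _ ≤ (‖Ft n z - avg (Ft n) δ z‖ₑ + ‖avg (Ft n) δ z - G z‖ₑ) ^ 2 := by
                gcongr; exact enorm_add_le _ _
            _ ≤ 4 * (‖Ft n z - avg (Ft n) δ z‖ₑ ^ 2 + ‖avg (Ft n) δ z - G z‖ₑ ^ 2) :=
                add_sq_le' _ _
            _ ≤ _ := by gcongr
        calc W n z * ‖F n z - G z‖ₑ ^ 2 ≤ W n z * (4 * (‖Ft n z - avg (Ft n) δ z‖ₑ ^ 2 +
            ENNReal.ofReal t ^ 2)) := by gcongr
          _ = _ := by ring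
    _ = 4 * (∫⁻ z in K, W n z * ‖Ft n z - avg (Ft n) δ z‖ₑ ^ 2) +
          4 * (ENNReal.ofReal t ^ 2 * ∫⁻ z in K, W n z) := by
        rw [lintegral_const_mul' _ _ (by finiteness), lintegral_add_left' hm,
          lintegral_const_mul' _ _ (by finiteness), mul_add]
    _ ≤ 4 * (KK d δ B * ∫⁻ y in K', VV (Ft n) y ^ 2) +
          4 * (ENNReal.ofReal t ^ 2 * (volume K + B)) := by gcongr
    _ ≤ ε / 2 + ε / 2 := by gcongr
    _ = ε := ENNReal.add_halves ε

end Vale.Agent.P301.H897
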