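import Vale.Agent.P301.H862.Glob
import Mathlib.Analysis.Matrix.Order

/-!
# Bounds for continuous families of positive definite matrices
-/

open scoped Manifold ContDiff ComplexOrder Topology Matrix Kronecker
open Filter Metric Set
open Vale.Agent.P272.K Vale.Agent.P272.K.C2 Vale.Agent.P299.H954 Vale.Agent.P299.IX
open Vale.Agent.P301.H599 Vale.Agent.P301.H862

noncomputable section

namespace Vale.Agent.P301.H897

variable {E κ : Type*} [TopologicalSpace E] [Fintype κ]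

lemma quad_smul (M : Matrix κ κ ℂ) (t : ℝ) (v : κ → ℂ) :
    (star ((t : ℂ) • v) ⬝ᵥ (M *ᵥ ((t : ℂ) • v))).re = t ^ 2 * (star v ⬝ᵥ (M *ᵥ v)).re := by
  rw [Matrix.mulVec_smul, star_smul, smul_dotProduct, dotProduct_smul]
  have h1 : star (t : ℂ) = (t : ℂ) := Complex.conj_ofReal t
  rw [h1, smul_smul, smul_eq_mul]
  have h2 : (t : ℂ) * (t : ℂ) = ((t ^ 2 : ℝ) : ℂ) := by push_cast; ring
  rw [h2, Complex.re_ofReal_mul]

theorem exists_lower {S : Set E} (hS : IsCompact S) {M : E → Matrix κ κ ℂ}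
    (hM : ∀ i j, ContinuousOn (fun z => M z i j) S) (hp : ∀ z ∈ S, (M z).PosDef) :
    ∃ c : ℝ, 0 < c ∧ ∀ z ∈ S, ∀ v : κ → ℂ, c * ∑ i, ‖v i‖ ^ 2 ≤ (star v ⬝ᵥ (M z *ᵥ v)).re := by
  classical
  set T1 : Set (κ → ℂ) := {v | ∑ i, ‖v i‖ ^ 2 = 1} with hT
  have hcont : Continuous fun v : κ → ℂ => ∑ i, ‖v i‖ ^ 2 :=
    continuous_finsetSum _ fun i _ => ((continuous_apply i).norm).pow 2
  have hTc : IsCompact T1 := by
    refine Metric.isCompact_of_isClosed_isBounded (isClosed_eq hcont continuous_const) ?_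
    refine (isBounded_iff_forall_norm_le).2 ⟨1, fun v hv => ?_⟩
    refine (pi_norm_le_iff_of_nonneg zero_le_one).2 fun i => ?_
    have h1 : ‖v i‖ ^ 2 ≤ ∑ i, ‖v i‖ ^ 2 :=
      Finset.single_le_sum (f := fun i => ‖v i‖ ^ 2) (fun _ _ => by positivity) (Finset.mem_univ i)
    rw [show ∑ i, ‖v i‖ ^ 2 = 1 from hv] at h1
    nlinarith [norm_nonneg (v i)]
  have hq : ContinuousOn (fun q : E × (κ → ℂ) => (star q.2 ⬝ᵥ (M q.1 *ᵥ q.2)).re) (S ×ˢ T1) := by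
    refine Complex.continuous_re.comp_continuousOn ?_
    simp only [dotProduct, Matrix.mulVec]
    refine continuousOn_finsetSum _ fun i _ => ContinuousOn.mul ?_
      (continuousOn_finsetSum _ fun j _ => ContinuousOn.mul ?_ ?_)
    · exact (((continuous_apply i).comp continuous_snd).star).continuousOn
    · exact (hM i j).comp continuousOn_fst fun q hq => hq.1
    · exact ((continuous_apply j).comp continuous_snd).continuousOn
  have hpos : ∀ z ∈ S, ∀ v : κ → ℂ, v ≠ 0 → 0 < (star v ⬝ᵥ (M z *ᵥ v)).re := fun z hz v hv =>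
    (Complex.lt_def.1 ((Matrix.posDef_iff_dotProduct_mulVec.1 (hp z hz)).2 hv)).1
  obtain ⟨c, hc, hcS⟩ : ∃ c : ℝ, 0 < c ∧ ∀ z ∈ S, ∀ v ∈ T1, c ≤ (star v ⬝ᵥ (M z *ᵥ v)).re := by
    rcases (S ×ˢ T1).eq_empty_or_nonempty with he | hne
    · refine ⟨1, one_pos, fun z hz v hv => ?_⟩
      have : (z, v) ∈ S ×ˢ T1 := ⟨hz, hv⟩
      rw [he] at this
      exact absurd this (notMem_empty _)
    · obtain ⟨q, hq1, hq2⟩ := (hS.prod hTc).exists_isMinOn hne hq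
      have hq0 : q.2 ≠ 0 := by
        intro h0
        have h1 : ∑ i, ‖q.2 i‖ ^ 2 = 1 := hq1.2
        rw [h0] at h1
        simp at h1
      exact ⟨_, hpos q.1 hq1.1 q.2 hq0, fun z hz v hv => hq2 (show (z, v) ∈ S ×ˢ T1 from ⟨hz, hv⟩)⟩
  refine ⟨c, hc, fun z hz v => ?_⟩
  by_cases hv : v = 0
  · subst hv; simp
  have hn0 : 0 < ∑ i, ‖v i‖ ^ 2 := by
    obtain ⟨i, hi⟩ := Function.ne_iff.1 hv
    refine lt_of_lt_of_le ?_ (Finset.single_le_sum (f := fun i => ‖v i‖ ^ 2)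
      (fun _ _ => by positivity) (Finset.mem_univ i))
    have : 0 < ‖v i‖ := norm_pos_iff.2 hi
    positivity
  set t : ℝ := Real.sqrt (∑ i, ‖v i‖ ^ 2) with ht
  have ht0 : 0 < t := Real.sqrt_pos.2 hn0
  have ht2 : t ^ 2 = ∑ i, ‖v i‖ ^ 2 := Real.sq_sqrt hn0.le
  have hmem : ((t⁻¹ : ℝ) : ℂ) • v ∈ T1 := by
    show ∑ i, ‖(((t⁻¹ : ℝ) : ℂ) • v) i‖ ^ 2 = 1
    simp only [Pi.smul_apply, norm_smul, Complex.norm_real, mul_pow]
    rw [← Finset.mul_sum, ← ht2, Real.norm_of_nonneg (by positivity)]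
    field_simp
  have h1 := hcS z hz _ hmem
  rw [quad_smul] at h1
  rw [← ht2]
  have h2 : t ^ 2 * (t⁻¹ ^ 2 * (star v ⬝ᵥ (M z *ᵥ v)).re) = (star v ⬝ᵥ (M z *ᵥ v)).re := by
    field_simp
  nlinarith [mul_le_mul_of_nonneg_left h1 (sq_nonneg t)]

theorem exists_upper {S : Set E} (hS : IsCompact S) {M : E → Matrix κ κ ℂ}
    (hM : ∀ i j, ContinuousOn (fun z => M z i j) S) :
    ∃ C : ℝ, 0 ≤ C ∧ ∀ z ∈ S, ∀ v : κ → ℂ, (star v ⬝ᵥ (M z *ᵥ v)).re ≤ C * ∑ i, ‖v i‖ ^ 2 := by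
  choose m hm using fun i j => hS.exists_bound_of_continuousOn (hM i j)
  refine ⟨∑ i, ∑ j, |m i j|, by positivity, fun z hz v => ?_⟩
  refine (Complex.re_le_norm _).trans ?_
  simp only [dotProduct, Matrix.mulVec]
  refine (norm_sum_le _ _).trans ?_
  rw [Finset.sum_mul]
  refine Finset.sum_le_sum fun i _ => ?_
  rw [norm_mul, Finset.sum_mul]
  have h0 : ∀ i, ‖v i‖ ^ 2 ≤ ∑ i, ‖v i‖ ^ 2 := fun i =>
    Finset.single_le_sum (f := fun i => ‖v i‖ ^ 2) (fun _ _ => by positivity) (Finset.mem_univ i)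
  calc ‖(star v) i‖ * ‖∑ j, M z i j * v j‖ ≤ ‖v i‖ * ∑ j, |m i j| * ‖v j‖ := by
        rw [Pi.star_apply, norm_star]
        gcongr
        refine (norm_sum_le _ _).trans (Finset.sum_le_sum fun j _ => ?_)
        rw [norm_mul]
        gcongr
        exact (hm i j z hz).trans (le_abs_self _)
    _ = ∑ j, |m i j| * (‖v i‖ * ‖v j‖) := by
        rw [Finset.mul_sum]
        exact Finset.sum_congr rfl fun j _ => by ring
    _ ≤ ∑ j, |m i j| * ∑ i, ‖v i‖ ^ 2 := by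
        refine Finset.sum_le_sum fun j _ => mul_le_mul_of_nonneg_left ?_ (abs_nonneg _)
        nlinarith [h0 i, h0 j, sq_nonneg (‖v i‖ - ‖v j‖)]

end Vale.Agent.P301.H897
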