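import Mathlib.Analysis.SpecialFunctions.SmoothTransition
import Mathlib.Analysis.Calculus.ParametricIntegral
import Mathlib.MeasureTheory.Integral.IntervalIntegral.FundThmCalculus
import Mathlib.MeasureTheory.Measure.Haar.NormedSpace
import Mathlib.MeasureTheory.Measure.Haar.InnerProductSpace
import Mathlib.Analysis.Complex.Isometry
import Vale.Agent.P272.K.INT.Wirt

/-!
# Averages of a function over small discs and its `∂̄`-derivative

`chi` is a smooth nonnegative function on `ℂᵈ` of integral one, supported in the closed unit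
polydisc and invariant under `z ↦ c z`, `|c| = 1`. For a `C¹` function `F`

`F a = ∫ chi z F (a + δ z) - ∫_0^1 4 δ t ∫ chi z ∑ conj (z_j) (∂̄_j F) (a + t² δ z)`.
-/

open scoped ContDiff Topology ComplexConjugate
open MeasureTheory Set Filter Metric

noncomputable section

namespace Vale.Agent.P301.H897

open Vale.Agent.P272.K Vale.Agent.P272.K.INT

variable {d : ℕ}

/-- a bump function, not normalised -/
def eta (z : Cm d) : ℝ := Real.smoothTransition (1 - ∑ j, ‖z j‖ ^ 2)

lemma eta_contDiff : ContDiff ℝ ∞ (eta (d := d)) := by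
  unfold eta
  refine Real.smoothTransition.contDiff.comp (contDiff_const.sub (ContDiff.sum fun j _ => ?_))
  exact (contDiff_norm_sq ℝ).comp (contDiff_apply ℝ ℂ j)

lemma eta_nonneg (z : Cm d) : 0 ≤ eta z := Real.smoothTransition.nonneg _

lemma eta_le_one (z : Cm d) : eta z ≤ 1 := Real.smoothTransition.le_one _

lemma eta_smul {c : ℂ} (hc : ‖c‖ = 1) (z : Cm d) : eta (c • z) = eta z := by
  unfold eta
  simp [hc]

lemma eta_off {z : Cm d} (h : 1 ≤ ‖z‖) : eta z = 0 := by
  unfold eta
  apply Real.smoothTransition.zero_of_nonpos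
  by_contra hc
  push Not at hc
  have h1 : ∀ j, ‖z j‖ < 1 := by
    intro j
    have h2 : ‖z j‖ ^ 2 ≤ ∑ j, ‖z j‖ ^ 2 :=
      Finset.single_le_sum (f := fun j => ‖z j‖ ^ 2) (fun i _ => by positivity) (Finset.mem_univ j)
    nlinarith [norm_nonneg (z j)]
  exact absurd ((pi_norm_lt_iff one_pos).2 h1) (not_lt.2 h)

lemma eta_zero : eta (0 : Cm d) = 1 := by
  unfold eta
  simp [Real.smoothTransition.one]

lemma eta_tsupport : tsupport (eta (d := d)) ⊆ closedBall 0 1 := by
  refine closure_minimal ?_ isClosed_closedBall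
  intro z hz
  rw [mem_closedBall_zero_iff]
  by_contra h
  exact hz (eta_off (not_le.1 h).le)

lemma eta_hasCompactSupport : HasCompactSupport (eta (d := d)) :=
  (isCompact_closedBall 0 1).of_isClosed_subset (isClosed_tsupport _) eta_tsupport

lemma eta_integrable : Integrable (eta (d := d)) :=
  eta_contDiff.continuous.integrable_of_hasCompactSupport eta_hasCompactSupport

lemma eta_integral_pos : 0 < ∫ z : Cm d, eta z :=
  eta_contDiff.continuous.integral_pos_of_hasCompactSupport_nonneg_nonzero eta_hasCompactSupport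
    eta_nonneg (x := 0) (by rw [eta_zero]; exact one_ne_zero)

/-- the normalised bump function -/
def chi (z : Cm d) : ℝ := (∫ z : Cm d, eta z)⁻¹ * eta z

lemma chi_contDiff : ContDiff ℝ ∞ (chi (d := d)) := contDiff_const.mul eta_contDiff

lemma chi_continuous : Continuous (chi (d := d)) := chi_contDiff.continuous

lemma chi_nonneg (z : Cm d) : 0 ≤ chi z :=
  mul_nonneg (inv_nonneg.2 eta_integral_pos.le) (eta_nonneg z)

lemma chi_le (z : Cm d) : chi z ≤ (∫ z : Cm d, eta z)⁻¹ :=
  mul_le_of_le_one_right (inv_nonneg.2 eta_integral_pos.le) (eta_le_one z)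

lemma chi_smul {c : ℂ} (hc : ‖c‖ = 1) (z : Cm d) : chi (c • z) = chi z := by
  unfold chi
  rw [eta_smul hc]

lemma chi_off {z : Cm d} (h : 1 ≤ ‖z‖) : chi z = 0 := by
  unfold chi
  rw [eta_off h, mul_zero]

lemma chi_tsupport : tsupport (chi (d := d)) ⊆ closedBall 0 1 := by
  refine closure_minimal ?_ isClosed_closedBall
  intro z hz
  rw [mem_closedBall_zero_iff]
  by_contra h
  exact hz (chi_off (not_le.1 h).le)

lemma chi_hasCompactSupport : HasCompactSupport (chi (d := d)) :=
  (isCompact_closedBall 0 1).of_isClosed_subset (isClosed_tsupport _) chi_tsupport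

lemma chi_integrable : Integrable (chi (d := d)) :=
  chi_continuous.integrable_of_hasCompactSupport chi_hasCompactSupport

lemma chi_integral : ∫ z : Cm d, chi z = 1 := by
  unfold chi
  rw [integral_const_mul]
  exact inv_mul_cancel₀ eta_integral_pos.ne'

/-- multiplication with a complex number of norm one preserves the Lebesgue measure -/
lemma measurePreserving_rot {c : ℂ} (hc : ‖c‖ = 1) :
    MeasurePreserving (fun z : Cm d => c • z) volume volume := by
  have h1 : MeasurePreserving (fun w : ℂ => c * w) volume volume := by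
    have := (rotation (⟨c, by simpa [Submonoid.unitSphere] using hc⟩ : Circle)).measurePreserving
    exact this
  exact volume_preserving_pi fun _ => h1

lemma integral_rot {c : ℂ} (hc : ‖c‖ = 1) (f : Cm d → ℂ) : ∫ z, f (c • z) = ∫ z, f z := by
  have hc0 : c ≠ 0 := by
    rintro rfl; simp at hc
  exact (measurePreserving_rot hc).integral_comp
    (Homeomorph.smulOfNeZero c hc0).measurableEmbedding f

lemma integral_chi_eq (f : Cm d → ℂ) :
    ∫ z, chi z • f z = ∫ z in closedBall (0 : Cm d) 1, chi z • f z := by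
  rw [setIntegral_eq_integral_of_forall_compl_eq_zero]
  intro z hz
  rw [mem_closedBall_zero_iff, not_le] at hz
  rw [chi_off hz.le, zero_smul]

variable {F : Cm d → ℂ}

lemma integrable_chi {f : Cm d → ℂ} (hf : Continuous f) : Integrable fun z => chi z • f z :=
  (chi_continuous.smul hf).integrable_of_hasCompactSupport chi_hasCompactSupport.smul_right

/-- differentiation of the averages along a path of complex dilations -/
lemma hasDerivAt_avg (hF : ContDiff ℝ 1 F) {γ : ℝ → ℂ} (hγ : ContDiff ℝ 1 γ) (a : Cm d) (s : ℝ) :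
    HasDerivAt (fun s => ∫ z, chi z • F (a + γ s • z))
      (∫ z, chi z • fderiv ℝ F (a + γ s • z) (deriv γ s • z)) s := by
  have hγ' : Continuous (deriv γ) := hγ.continuous_deriv le_rfl
  have hF' : Continuous (fderiv ℝ F) := hF.continuous_fderiv one_ne_zero
  have hcont : Continuous fun q : ℝ × Cm d =>
      fderiv ℝ F (a + γ q.1 • q.2) (deriv γ q.1 • q.2) := by
    refine (hF'.comp ?_).clm_apply ?_
    · exact continuous_const.add ((hγ.continuous.comp continuous_fst).smul continuous_snd)
    · exact (hγ'.comp continuous_fst).smul continuous_snd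
  obtain ⟨C, hC⟩ := ((isCompact_closedBall s 1).prod
    (isCompact_closedBall (0 : Cm d) 1)).exists_bound_of_continuousOn hcont.continuousOn
  have hC' : ∀ t ∈ ball s 1, ∀ z : Cm d, ‖chi z • fderiv ℝ F (a + γ t • z) (deriv γ t • z)‖ ≤
      chi z * C := by
    intro t ht z
    rw [norm_smul, Real.norm_of_nonneg (chi_nonneg z)]
    by_cases hz : ‖z‖ ≤ 1
    · exact mul_le_mul_of_nonneg_left
        (hC (t, z) ⟨ball_subset_closedBall ht, mem_closedBall_zero_iff.2 hz⟩) (chi_nonneg z)
    · rw [chi_off (not_le.1 hz).le, zero_mul, zero_mul]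
  refine (hasDerivAt_integral_of_dominated_loc_of_deriv_le (F := fun s z => chi z • F (a + γ s • z))
    (F' := fun s z => chi z • fderiv ℝ F (a + γ s • z) (deriv γ s • z)) (s := ball s 1)
    (ball_mem_nhds s one_pos) ?_ ?_ ?_ (ae_of_all _ fun z t ht => hC' t ht z)
    (chi_integrable.mul_const C) ?_).2
  · refine Eventually.of_forall fun t => (Continuous.aestronglyMeasurable ?_)
    exact chi_continuous.smul (hF.continuous.comp
      (continuous_const.add (continuous_const_smul _)))
  · exact integrable_chi (hF.continuous.comp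
      (continuous_const.add (continuous_const_smul _)))
  · refine Continuous.aestronglyMeasurable ?_
    exact chi_continuous.smul (hcont.comp (Continuous.prodMk_right s))
  · refine ae_of_all _ fun z t _ => HasDerivAt.const_smul (chi z) ?_
    have h1 : HasDerivAt γ (deriv γ t) t := (hγ.differentiable one_ne_zero t).hasDerivAt
    have h2 : HasDerivAt (fun t => a + γ t • z) (deriv γ t • z) t := (h1.smul_const z).const_add a
    exact ((hF.differentiable one_ne_zero _).hasFDerivAt).comp_hasDerivAt t h2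

/-- the rotation identity -/
lemma integral_rot_deriv (hF : ContDiff ℝ 1 F) (a : Cm d) {t : ℝ} (ht : t ≠ 0) :
    ∫ z, chi z • fderiv ℝ F (a + (t : ℂ) • z) (Complex.I • z) = 0 := by
  set γ : ℝ → ℂ := fun θ => (t : ℂ) * Complex.exp (Complex.I * θ) with hγdef
  have hγ : ContDiff ℝ 1 γ := by
    refine contDiff_const.mul (ContDiff.cexp ?_)
    exact contDiff_const.mul Complex.ofRealCLM.contDiff
  have hγd : HasDerivAt γ ((t : ℂ) * Complex.I) 0 := by
    have h1 : HasDerivAt (fun θ : ℝ => Complex.I * (θ : ℂ)) (Complex.I * 1) 0 :=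
      (Complex.ofRealCLM.hasDerivAt (x := (0 : ℝ))).const_mul Complex.I
    have h2 := (h1.cexp).const_mul (t : ℂ)
    refine h2.congr_deriv ?_
    simp
  have h1 := hasDerivAt_avg hF hγ a 0
  have h2 : (fun θ => ∫ z, chi z • F (a + γ θ • z)) = fun _ => ∫ z, chi z • F (a + (t : ℂ) • z) := by
    funext θ
    have hc : ‖Complex.exp (Complex.I * θ)‖ = 1 := by
      rw [mul_comm]; exact Complex.norm_exp_ofReal_mul_I θ
    rw [← integral_rot hc (fun z => chi z • F (a + (t : ℂ) • z))]
    refine integral_congr_ae (ae_of_all _ fun z => ?_)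
    simp only [hγdef]
    rw [chi_smul hc, smul_smul]
  rw [h2] at h1
  have h3 := h1.unique (hasDerivAt_const (0 : ℝ) _)
  have h4 : γ 0 = (t : ℂ) := by simp [hγdef]
  rw [hγd.deriv, h4] at h3
  have h5 : (fun z : Cm d => chi z • fderiv ℝ F (a + (t : ℂ) • z) (((t : ℂ) * Complex.I) • z)) =
      fun z => (t : ℂ) * (chi z • fderiv ℝ F (a + (t : ℂ) • z) (Complex.I • z)) := by
    funext z
    have : (((t : ℂ) * Complex.I) • z) = t • (Complex.I • z) := by
      rw [mul_smul]; rfl
    rw [this, map_smul, mul_smul_comm]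
    rfl
  rw [h5, integral_const_mul] at h3
  rcases mul_eq_zero.1 h3 with h | h
  · exact absurd (Complex.ofReal_eq_zero.1 h) ht
  · exact h

/-- `∑ conj (z_j) ∂̄_j F` through the real derivative -/
lemma sum_dzb_eq (w z : Cm d) : fderiv ℝ F w z + Complex.I * fderiv ℝ F w (Complex.I • z) =
    2 * ∑ j, conj (z j) * dzb j F w := by
  rw [fderiv_apply, fderiv_apply, Finset.mul_sum, Finset.mul_sum, ← Finset.sum_add_distrib]
  refine Finset.sum_congr rfl fun j _ => ?_
  simp only [Pi.smul_apply, smul_eq_mul, map_mul, Complex.conj_I]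
  linear_combination (z j * dz j F w - conj (z j) * dzb j F w) * Complex.I_mul_I

lemma deriv_avg_eq (hF : ContDiff ℝ 1 F) (a : Cm d) (δ t : ℝ) :
    ∫ z, chi z • fderiv ℝ F (a + ((t ^ 2 * δ : ℝ) : ℂ) • z) (((2 * t * δ : ℝ) : ℂ) • z) =
      (4 * δ * t) • ∫ z, chi z • ∑ j, conj (z j) * dzb j F (a + ((t ^ 2 * δ : ℝ) : ℂ) • z) := by
  by_cases h0 : t * δ = 0
  · have h1 : 2 * t * δ = 0 := by rw [mul_assoc, h0, mul_zero]
    have h2 : 4 * δ * t = 0 := by rw [mul_assoc, mul_comm δ t, h0, mul_zero]
    rw [h1, h2]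
    simp
  have ht : t ^ 2 * δ ≠ 0 := by
    intro h
    apply h0
    rcases mul_eq_zero.1 h with h | h
    · rw [pow_eq_zero_iff two_ne_zero] at h; rw [h, zero_mul]
    · rw [h, mul_zero]
  set T : ℝ := t ^ 2 * δ with hT
  have hF' : Continuous (fderiv ℝ F) := hF.continuous_fderiv one_ne_zero
  have hc : ∀ c : ℂ, Continuous fun z : Cm d => fderiv ℝ F (a + (T : ℂ) • z) (c • z) := by
    intro c
    refine (hF'.comp ?_).clm_apply (continuous_const_smul _)
    exact continuous_const.add (continuous_const_smul _)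
  have h1 : ∫ z, chi z • fderiv ℝ F (a + (T : ℂ) • z) (((2 * t * δ : ℝ) : ℂ) • z) =
      (2 * t * δ) • ∫ z, chi z • fderiv ℝ F (a + (T : ℂ) • z) z := by
    rw [← integral_smul]
    refine integral_congr_ae (ae_of_all _ fun z => ?_)
    show chi z • fderiv ℝ F (a + (T : ℂ) • z) ((2 * t * δ : ℝ) • z) = _
    rw [map_smul, smul_comm]
  have h2 : ∫ z, chi z • fderiv ℝ F (a + (T : ℂ) • z) z =
      ∫ z, chi z • (2 * ∑ j, conj (z j) * dzb j F (a + (T : ℂ) • z)) := by
    have h3 : ∫ z, chi z • fderiv ℝ F (a + (T : ℂ) • z) z =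
        (∫ z, chi z • fderiv ℝ F (a + (T : ℂ) • z) z) +
          Complex.I * ∫ z, chi z • fderiv ℝ F (a + (T : ℂ) • z) (Complex.I • z) := by
      rw [integral_rot_deriv hF a ht, mul_zero, add_zero]
    rw [h3, ← integral_const_mul, ← integral_add]
    · refine integral_congr_ae (ae_of_all _ fun z => ?_)
      simp only
      rw [← sum_dzb_eq, smul_add, mul_smul_comm]
    · have := integrable_chi (hc 1)
      simpa using this
    · exact (integrable_chi (hc Complex.I)).const_mul _
  rw [h1, h2]
  have h4 : (fun z : Cm d => chi z • (2 * ∑ j, conj (z j) * dzb j F (a + (T : ℂ) • z))) =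
      fun z => (2 : ℝ) • (chi z • ∑ j, conj (z j) * dzb j F (a + (T : ℂ) • z)) := by
    funext z
    rw [smul_comm (2 : ℝ)]
    congr 1
  rw [h4, integral_smul, smul_smul]
  congr 1
  ring

lemma continuous_dzb (hF : ContDiff ℝ 1 F) (j : Fin d) : Continuous (dzb j F) := by
  have hF' : Continuous (fderiv ℝ F) := hF.continuous_fderiv one_ne_zero
  rw [dzb_fun_eq]
  exact continuous_const.mul ((hF'.clm_apply continuous_const).add
    (continuous_const.mul (hF'.clm_apply continuous_const)))

lemma continuous_inner (hF : ContDiff ℝ 1 F) (a : Cm d) (δ : ℝ) : Continuous fun t : ℝ =>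
    ∫ z, chi z • ∑ j, conj (z j) * dzb j F (a + ((t ^ 2 * δ : ℝ) : ℂ) • z) := by
  simp_rw [integral_chi_eq]
  refine continuous_parametric_integral_of_continuous ?_ (isCompact_closedBall 0 1)
  refine (chi_continuous.comp continuous_snd).smul (continuous_finsetSum _ fun j _ => ?_)
  refine Continuous.mul ?_ ((continuous_dzb hF j).comp ?_)
  · exact Complex.continuous_conj.comp ((continuous_apply j).comp continuous_snd)
  · have h1 : Continuous fun q : ℝ × Cm d => ((q.1 ^ 2 * δ : ℝ) : ℂ) :=
      Complex.continuous_ofReal.comp ((continuous_fst.pow 2).mul continuous_const)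
    exact continuous_const.add (h1.fun_smul continuous_snd)

/-- the representation formula -/
theorem rep (hF : ContDiff ℝ 1 F) (a : Cm d) (δ : ℝ) :
    F a = (∫ z, chi z • F (a + (δ : ℂ) • z)) -
      ∫ t in (0 : ℝ)..1, (4 * δ * t) • ∫ z, chi z • ∑ j, conj (z j) *
        dzb j F (a + ((t ^ 2 * δ : ℝ) : ℂ) • z) := by
  set γ : ℝ → ℂ := fun t => ((t ^ 2 * δ : ℝ) : ℂ) with hγdef
  have hγ : ContDiff ℝ 1 γ :=
    Complex.ofRealCLM.contDiff.comp ((contDiff_id.pow 2).mul contDiff_const)
  have hγd : ∀ t, deriv γ t = ((2 * t * δ : ℝ) : ℂ) := by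
    intro t
    have h1 : HasDerivAt (fun t : ℝ => t ^ 2 * δ) (2 * t * δ) t := by
      have := (hasDerivAt_pow 2 t).mul_const δ
      simpa using this
    exact h1.ofReal_comp.deriv
  have h1 : ∀ t, HasDerivAt (fun t => ∫ z, chi z • F (a + γ t • z))
      ((4 * δ * t) • ∫ z, chi z • ∑ j, conj (z j) * dzb j F (a + ((t ^ 2 * δ : ℝ) : ℂ) • z)) t := by
    intro t
    have h2 := hasDerivAt_avg hF hγ a t
    rw [hγd t] at h2
    rw [← deriv_avg_eq hF a δ t]
    exact h2
  have h3 := intervalIntegral.integral_eq_sub_of_hasDerivAt (a := (0 : ℝ)) (b := 1)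
    (fun t _ => h1 t) (((continuous_const.mul continuous_id).smul
      (continuous_inner hF a δ)).intervalIntegrable 0 1)
  have h4 : ∫ z, chi z • F (a + γ 0 • z) = F a := by
    have : ∀ z : Cm d, a + γ 0 • z = a := by
      intro z; simp [hγdef]
    simp_rw [this]
    rw [integral_smul_const, chi_integral, one_smul]
  have h5 : γ 1 = (δ : ℂ) := by simp [hγdef]
  rw [h3, h4, h5]
  ring

end Vale.Agent.P301.H897
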