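import Vale.Agent.P301.H897.Chg

/-!
# Limits of smooth sections with `∂̄ → 0`
-/

open scoped Manifold ContDiff Topology ComplexConjugate ENNReal
open MeasureTheory Set Filter Metric

noncomputable section

namespace Vale.Agent.P301.H897

open Vale.Agent.P272.K Vale.Agent.P272.K.INT Vale.Agent.P301.H599

variable {d : ℕ} {X : Type} [TopologicalSpace X] [ChartedSpace (Cm d) X] {ι A : Type} [Fintype A]
  {α : Type*}

/-- `s` is a smooth section of `V ⊗ L^m`, where `V` has the transition matrices `Lam`. -/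
structure IsSmSec (L : LineBundle d X ι) (Lam : Chart d X → Chart d X → X → Matrix A A ℂ) (m : ℕ)
    (s : ι → Chart d X → Cm d → A → ℂ) : Prop where
  smooth : ∀ i e x, At e x → x ∈ L.U i → ∀ a, ContDiffAt ℝ ∞ (fun z => s i e z a) (e x)
  chL : ∀ i j e x, At e x → x ∈ L.U i → x ∈ L.U j → s i e (e x) = (L.g i j x) ^ m • s j e (e x)
  chV : ∀ i e e' x, At e x → At e' x → x ∈ L.U i →
    s i e (e x) = (Lam e e' x).mulVec (s i e' (e' x))

/-- `s` is a holomorphic section of `V ⊗ L^m`. -/
structure IsHolSec (L : LineBundle d X ι) (Lam : Chart d X → Chart d X → X → Matrix A A ℂ) (m : ℕ)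
    (s : ι → Chart d X → Cm d → A → ℂ) : Prop where
  holo : ∀ i e x, At e x → x ∈ L.U i → ∀ a, AnalyticAt ℂ (fun z => s i e z a) (e x)
  chL : ∀ i j e x, At e x → x ∈ L.U i → x ∈ L.U j → s i e (e x) = (L.g i j x) ^ m • s j e (e x)
  chV : ∀ i e e' x, At e x → At e' x → x ∈ L.U i →
    s i e (e x) = (Lam e e' x).mulVec (s i e' (e' x))

/-- the points of the chart `e` over `U i` -/
def Dom (L : LineBundle d X ι) (i : ι) (e : Chart d X) : Set (Cm d) := e.target ∩ e.symm ⁻¹' L.U i

omit [Fintype A] in
lemma isOpen_Dom (L : LineBundle d X ι) (i : ι) (e : Chart d X) : IsOpen (Dom L i e) :=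
  e.isOpen_inter_preimage_symm (L.isOpen i)

omit [Fintype A] in
lemma mem_Dom {L : LineBundle d X ι} {i : ι} {e : Chart d X} {x : X} (hx : At e x)
    (hi : x ∈ L.U i) : e x ∈ Dom L i e :=
  ⟨e.map_source hx.2, by rw [mem_preimage, e.left_inv hx.2]; exact hi⟩

/-- local bounds of a family of sections -/
def LocBdd (l : Filter α) (L : LineBundle d X ι) (g : α → ι → Chart d X → Cm d → A → ℂ) : Prop :=
  ∀ i e x, At e x → x ∈ L.U i → ∃ r : ℝ, 0 < r ∧ closedBall (e x) r ⊆ Dom L i e ∧
    (∃ B : ℝ≥0∞, B ≠ ⊤ ∧ ∀ᶠ n in l, ∀ a, ∫⁻ z in closedBall (e x) r, ‖g n i e z a‖ₑ ^ 2 ≤ B) ∧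
    ∀ a j, Tendsto (fun n => ∫⁻ z in closedBall (e x) r, ‖dzb j (fun y => g n i e y a) z‖ₑ ^ 2) l
      (𝓝 0)

/-- local convergence with weights -/
def LConv (l : Filter α) (f : α → Cm d → A → ℂ) (G : Cm d → A → ℂ) (S : Set (Cm d)) : Prop :=
  ∀ W : α → Cm d → ℝ≥0∞, (∀ n, AEMeasurable (W n) (volume.restrict S)) → ∀ B : ℝ≥0∞, B ≠ ⊤ →
    (∀ᶠ n in l, ∫⁻ z in S, W n z ^ (2 * d + 1) ≤ B) →
    ∀ a, Tendsto (fun n => ∫⁻ z in S, W n z * ‖f n z a - G z a‖ₑ ^ 2) l (𝓝 0)

omit [Fintype A] in
lemma LConv.one {l : Filter α} {f : α → Cm d → A → ℂ} {G : Cm d → A → ℂ} {S : Set (Cm d)}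
    (h : LConv l f G S) (hS : volume S ≠ ⊤) {S' : Set (Cm d)} (hSS : S' ⊆ S) (a : A) :
    Tendsto (fun n => ∫⁻ z in S', ‖f n z a - G z a‖ₑ ^ 2) l (𝓝 0) := by
  have h1 := h (fun _ _ => 1) (fun _ => aemeasurable_const) (volume S) hS
    (Eventually.of_forall fun n => by simp) a
  refine tendsto_of_tendsto_of_tendsto_of_le_of_le tendsto_const_nhds h1 (fun _ => zero_le)
    fun n => ?_
  simp only [one_mul]
  exact lintegral_mono_set hSS

variable {L : LineBundle d X ι} {Lam : Chart d X → Chart d X → X → Matrix A A ℂ} {m : ℕ}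

omit [Fintype A] in
lemma cont_sec {s : ι → Chart d X → Cm d → A → ℂ}
    (hs : ∀ i e x, At e x → x ∈ L.U i → ∀ a, ContDiffAt ℝ ∞ (fun z => s i e z a) (e x))
    {e : Chart d X} (he : e ∈ atlas (Cm d) X) (i : ι) (a : A) {z : Cm d} (hz : z ∈ Dom L i e) :
    ContDiffAt ℝ ∞ (fun z => s i e z a) z := by
  have := hs i e (e.symm z) ⟨he, e.map_target hz.1⟩ hz.2 a
  rwa [e.right_inv hz.1] at this

lemma aemeas_of_cont {S : Set (Cm d)} (hS : MeasurableSet S) {f : Cm d → ℂ}
    (hf : ContinuousOn f S) : AEMeasurable (fun z => ‖f z‖ₑ ^ 2) (volume.restrict S) :=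
  ((hf.aestronglyMeasurable hS).enorm).pow_const 2

/-- **Limits of sections.** -/
theorem lim_section [IsManifold 𝓘(ℂ, Cm d) ω X] (l : Ultrafilter α)
    (hLam : ∀ e e' x, At e x → At e' x → ∀ a b,
      ContinuousAt (fun z => Lam e e' (e.symm z) a b) (e x))
    {g : α → ι → Chart d X → Cm d → A → ℂ} (hg : ∀ n, IsSmSec L Lam m (g n))
    (hb : LocBdd (l : Filter α) L g) :
    ∃ u, IsHolSec L Lam m u ∧ ∀ i e x, At e x → x ∈ L.U i → ∃ r : ℝ, 0 < r ∧
      closedBall (e x) r ⊆ Dom L i e ∧ LConv (l : Filter α) (fun n => g n i e) (u i e)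
        (closedBall (e x) r) := by
  classical
  have key : ∀ i e x, At e x → x ∈ L.U i → ∃ r : ℝ, 0 < r ∧ closedBall (e x) r ⊆ Dom L i e ∧
      ∃ G : Cm d → A → ℂ, (∀ a, ∀ z ∈ closedBall (e x) r, AnalyticAt ℂ (fun z => G z a) z) ∧
        LConv (l : Filter α) (fun n => g n i e) G (closedBall (e x) r) := by
    intro i e x hx hi
    obtain ⟨r, hr, hsub, ⟨B, hB, hgB⟩, hd⟩ := hb i e x hx hi
    have h2r : 2 * (r / 2) = r := by ring
    have h1 : ∀ a, ∃ G : Cm d → ℂ, (∀ z ∈ closedBall (e x) (r / 2), AnalyticAt ℂ G z) ∧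
      ∀ W : α → Cm d → ℝ≥0∞, (∀ n, AEMeasurable (W n) (volume.restrict (closedBall (e x) (r / 2)))) →
        ∀ B : ℝ≥0∞, B ≠ ⊤ →
        (∀ᶠ n in (l : Filter α), ∫⁻ z in closedBall (e x) (r / 2), W n z ^ (2 * d + 1) ≤ B) →
        Tendsto (fun n => ∫⁻ z in closedBall (e x) (r / 2), W n z * ‖g n i e z a - G z‖ₑ ^ 2) l
          (𝓝 0) := by
      intro a
      refine loc_lim (c := e x) (R := r / 2) (by positivity) l (fun n z => g n i e z a) ?_ hB ?_ ?_
      · intro n z hz
        rw [h2r] at hz
        exact (cont_sec (hg n).smooth hx.1 i a (hsub hz)).of_le (by norm_cast)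
      · rw [h2r]
        filter_upwards [hgB] with n hn using hn a
      · rw [h2r]
        exact fun j => hd a j
    choose G hG1 hG2 using h1
    exact ⟨r / 2, by positivity, (closedBall_subset_closedBall (by linarith)).trans hsub,
      fun z a => G a z, fun a z hz => hG1 a z hz, fun W hW B hB hWB a => hG2 a W hW B hB hWB⟩
  choose! r hr hsub G hG hconv using key
  set u : ι → Chart d X → Cm d → A → ℂ := fun i e z => G i e (e.symm z) z with hu
  -- the local limits agree
  have hagree : ∀ i e x, At e x → x ∈ L.U i → ∀ y ∈ ball (e x) (r i e x), u i e y = G i e x y := by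
    intro i e x hx hi y hy
    have hyD : y ∈ Dom L i e := hsub i e x hx hi (ball_subset_closedBall hy)
    have hx' : At e (e.symm y) := ⟨hx.1, e.map_target hyD.1⟩
    have hey : e (e.symm y) = y := e.right_inv hyD.1
    have hr' := hr i e (e.symm y) hx' hyD.2
    have hc' := hconv i e (e.symm y) hx' hyD.2
    have hG' := hG i e (e.symm y) hx' hyD.2
    rw [hey] at hc' hG'
    have hnb : ball (e x) (r i e x) ∩ ball y (r i e (e.symm y)) ∈ 𝓝 y :=
      inter_mem (isOpen_ball.mem_nhds hy) (ball_mem_nhds y hr')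
    obtain ⟨ρ, hρ, hρs⟩ := Metric.nhds_basis_closedBall.mem_iff.1 hnb
    have hs1 : closedBall y ρ ⊆ closedBall (e x) (r i e x) :=
      fun z hz => ball_subset_closedBall (hρs hz).1
    have hs2 : closedBall y ρ ⊆ closedBall y (r i e (e.symm y)) :=
      fun z hz => ball_subset_closedBall (hρs hz).2
    funext a
    refine eq_of_lim (l := (l : Filter α)) (S := closedBall y ρ) (closedBall_mem_nhds y hρ)
      (f := fun n z => g n i e z a) (G := fun z => G i e (e.symm y) z a) (H := fun z => G i e x z a)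
      (fun n => ?_) ?_ ?_ ?_ ?_
    · refine aemeas_of_cont measurableSet_closedBall fun z hz => ?_
      have h1 := (cont_sec (hg n).smooth hx.1 i a (hsub i e x hx hi (hs1 hz))).continuousAt
      exact (h1.sub (hG' a z (hs2 hz)).continuousAt).continuousWithinAt
    · exact (hG' a y (mem_closedBall_self hr'.le)).continuousAt
    · exact (hG i e x hx hi a y (ball_subset_closedBall hy)).continuousAt
    · exact hc'.one (isCompact_closedBall _ _).measure_ne_top hs2 a
    · exact (hconv i e x hx hi).one (isCompact_closedBall _ _).measure_ne_top hs1 a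
  have hUc : ∀ i e x, At e x → x ∈ L.U i → LConv (l : Filter α) (fun n => g n i e) (u i e)
      (closedBall (e x) (r i e x / 2)) := by
    intro i e x hx hi W hW B hB hWB a
    have hr' := hr i e x hx hi
    have hss : closedBall (e x) (r i e x / 2) ⊆ ball (e x) (r i e x) :=
      closedBall_subset_ball (by linarith)
    have h1 := hconv i e x hx hi (fun n => (closedBall (e x) (r i e x / 2)).indicator (W n))
      (fun n => ((aemeasurable_indicator_iff measurableSet_closedBall).2 (hW n)).restrict) B hB ?_ a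
    · refine h1.congr fun n => ?_
      have h2 : ∀ z, (closedBall (e x) (r i e x / 2)).indicator (W n) z *
          ‖g n i e z a - G i e x z a‖ₑ ^ 2 = (closedBall (e x) (r i e x / 2)).indicator
            (fun z => W n z * ‖g n i e z a - G i e x z a‖ₑ ^ 2) z := by
        intro z
        by_cases hz : z ∈ closedBall (e x) (r i e x / 2)
        · rw [indicator_of_mem hz, indicator_of_mem hz]
        · rw [indicator_of_notMem hz, indicator_of_notMem hz, zero_mul]
      simp_rw [h2]
      rw [lintegral_indicator measurableSet_closedBall, Measure.restrict_restrict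
        measurableSet_closedBall, inter_eq_left.2 (hss.trans ball_subset_closedBall)]
      refine setLIntegral_congr_fun measurableSet_closedBall fun z hz => ?_
      show W n z * ‖g n i e z a - G i e x z a‖ₑ ^ 2 = W n z * ‖g n i e z a - u i e z a‖ₑ ^ 2
      rw [hagree i e x hx hi z (hss hz)]
    · filter_upwards [hWB] with n hn
      refine le_trans (le_of_eq ?_) hn
      have h2 : ∀ z, (closedBall (e x) (r i e x / 2)).indicator (W n) z ^ (2 * d + 1) =
          (closedBall (e x) (r i e x / 2)).indicator (fun z => W n z ^ (2 * d + 1)) z := by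
        intro z
        by_cases hz : z ∈ closedBall (e x) (r i e x / 2)
        · rw [indicator_of_mem hz, indicator_of_mem hz]
        · rw [indicator_of_notMem hz, indicator_of_notMem hz, zero_pow (by positivity)]
      simp_rw [h2]
      rw [lintegral_indicator measurableSet_closedBall, Measure.restrict_restrict
        measurableSet_closedBall, inter_eq_left.2 (hss.trans ball_subset_closedBall)]
  have huan : ∀ i e x, At e x → x ∈ L.U i → ∀ a, AnalyticAt ℂ (fun z => u i e z a) (e x) := by
    intro i e x hx hi a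
    refine (hG i e x hx hi a (e x) (mem_closedBall_self (hr i e x hx hi).le)).congr ?_
    filter_upwards [ball_mem_nhds (e x) (hr i e x hx hi)] with y hy
    rw [hagree i e x hx hi y hy]
  refine ⟨u, ⟨huan, ?_, ?_⟩, fun i e x hx hi => ⟨r i e x / 2, half_pos (hr i e x hx hi),
    (closedBall_subset_closedBall (by linarith [hr i e x hx hi])).trans (hsub i e x hx hi),
    hUc i e x hx hi⟩⟩
  · -- change of the frame of `L`
    intro i j e x hx hi hj
    set ρ : ℝ := min (r i e x / 2) (r j e x / 2) with hρ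
    have hρ0 : 0 < ρ := lt_min (half_pos (hr i e x hx hi)) (half_pos (hr j e x hx hj))
    have hs1 : closedBall (e x) ρ ⊆ closedBall (e x) (r i e x / 2) :=
      closedBall_subset_closedBall (min_le_left _ _)
    have hs2 : closedBall (e x) ρ ⊆ closedBall (e x) (r j e x / 2) :=
      closedBall_subset_closedBall (min_le_right _ _)
    have hd1 : closedBall (e x) ρ ⊆ Dom L i e := hs1.trans
      ((closedBall_subset_closedBall (by linarith [hr i e x hx hi])).trans (hsub i e x hx hi))
    have hd2 : closedBall (e x) ρ ⊆ Dom L j e := hs2.trans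
      ((closedBall_subset_closedBall (by linarith [hr j e x hx hj])).trans (hsub j e x hx hj))
    have hgc : ∀ z ∈ closedBall (e x) ρ, ContinuousAt (fun z => (L.g i j (e.symm z)) ^ m) z := by
      intro z hz
      have h1 := L.holo i j e (e.symm z) ⟨hx.1, e.map_target (hd1 hz).1⟩ (hd1 hz).2 (hd2 hz).2
      rw [e.right_inv (hd1 hz).1] at h1
      exact h1.continuousAt.pow m
    obtain ⟨C, hC⟩ := (isCompact_closedBall (e x) ρ).exists_bound_of_continuousOn
      (f := fun z => (L.g i j (e.symm z)) ^ m) fun z hz => (hgc z hz).continuousWithinAt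
    have huc : ∀ i' , x ∈ L.U i' → closedBall (e x) ρ ⊆ Dom L i' e → ∀ a, ∀ z ∈ closedBall (e x) ρ,
        ContinuousAt (fun z => u i' e z a) z := by
      intro i' _ hd a z hz
      have := huan i' e (e.symm z) ⟨hx.1, e.map_target (hd hz).1⟩ (hd hz).2 a
      rw [e.right_inv (hd hz).1] at this
      exact this.continuousAt
    have hgc' : ∀ n i', closedBall (e x) ρ ⊆ Dom L i' e → ∀ a, ∀ z ∈ closedBall (e x) ρ,
        ContinuousAt (fun z => g n i' e z a) z := fun n i' hd a z hz =>
      (cont_sec (hg n).smooth hx.1 i' a (hd hz)).continuousAt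
    funext a
    have h3 := tendsto_comb (β := Unit) (l := (l : Filter α)) (S := closedBall (e x) ρ)
      measurableSet_closedBall (h := fun n _ z => g n j e z a) (H := fun _ z => u j e z a)
      (fun n _ => aemeas_of_cont measurableSet_closedBall fun z hz =>
        ((hgc' n j hd2 a z hz).sub (huc j hj hd2 a z hz)).continuousWithinAt)
      (c := fun _ z => (L.g i j (e.symm z)) ^ m) (C := ENNReal.ofReal C) ENNReal.ofReal_ne_top
      (fun _ z hz => by rw [← ofReal_norm]; exact ENNReal.ofReal_le_ofReal (hC z hz))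
      (fun _ => (hUc j e x hx hj).one (isCompact_closedBall _ _).measure_ne_top hs2 a)
    simp only [Finset.univ_unique, Finset.sum_singleton] at h3
    have h4 := eq_of_lim (l := (l : Filter α)) (S := closedBall (e x) ρ)
      (closedBall_mem_nhds (e x) hρ0) (f := fun n z => g n i e z a) (G := fun z => u i e z a)
      (H := fun z => (L.g i j (e.symm z)) ^ m * u j e z a)
      (fun n => aemeas_of_cont measurableSet_closedBall fun z hz =>
        ((hgc' n i hd1 a z hz).sub (huc i hi hd1 a z hz)).continuousWithinAt)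
      (huc i hi hd1 a _ (mem_closedBall_self hρ0.le))
      ((hgc _ (mem_closedBall_self hρ0.le)).mul (huc j hj hd2 a _ (mem_closedBall_self hρ0.le)))
      ((hUc i e x hx hi).one (isCompact_closedBall _ _).measure_ne_top hs1 a) ?_
    · simp only [e.left_inv hx.2] at h4
      rw [h4]; rfl
    · refine h3.congr fun n => setLIntegral_congr_fun measurableSet_closedBall fun z hz => ?_
      have h5 := (hg n).chL i j e (e.symm z) ⟨hx.1, e.map_target (hd1 hz).1⟩ (hd1 hz).2 (hd2 hz).2
      rw [e.right_inv (hd1 hz).1] at h5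
      have h6 : g n i e z a = (L.g i j (e.symm z)) ^ m * g n j e z a := by
        rw [h5]; rfl
      show ‖(L.g i j (e.symm z)) ^ m * g n j e z a - _‖ₑ ^ 2 = ‖g n i e z a - _‖ₑ ^ 2
      rw [h6]
  · -- change of charts
    intro i e e' x hx hx' hi
    have hxr := hr i e x hx hi
    have hxr' := hr i e' x hx' hi
    obtain ⟨ρ, hρ0, hs1, hs2, C, hC, hint⟩ := lintegral_chart_le hx hx'
      (closedBall_mem_nhds (e' x) (half_pos hxr')) (closedBall_mem_nhds (e x) (half_pos hxr))
    have hd1 : closedBall (e x) ρ ⊆ Dom L i e := hs1.trans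
      ((closedBall_subset_closedBall (by linarith)).trans (hsub i e x hx hi))
    have hd2 : closedBall (e' x) (r i e' x / 2) ⊆ Dom L i e' :=
      (closedBall_subset_closedBall (by linarith)).trans (hsub i e' x hx' hi)
    have hat : ∀ z ∈ closedBall (e x) ρ, At e (e.symm z) ∧ At e' (e.symm z) ∧ e.symm z ∈ L.U i :=
      fun z hz => ⟨⟨hx.1, e.map_target (hd1 hz).1⟩, ⟨hx'.1, (hs2 z hz).2.1⟩, (hd1 hz).2⟩
    have hTc : ∀ z ∈ closedBall (e x) ρ, ContinuousAt (fun z => e' (e.symm z)) z := by
      intro z hz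
      have h1 := (transition_contDiffAt (hat z hz).1 (hat z hz).2.1).continuousAt
      rwa [e.right_inv (hd1 hz).1] at h1
    have hLc : ∀ a b, ∀ z ∈ closedBall (e x) ρ,
        ContinuousAt (fun z => Lam e e' (e.symm z) a b) z := by
      intro a b z hz
      have h1 := hLam e e' (e.symm z) (hat z hz).1 (hat z hz).2.1 a b
      rwa [e.right_inv (hd1 hz).1] at h1
    have huc : ∀ a, ∀ z ∈ closedBall (e x) ρ, ContinuousAt (fun z => u i e z a) z := by
      intro a z hz
      have := huan i e (e.symm z) (hat z hz).1 (hat z hz).2.2 a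
      rw [e.right_inv (hd1 hz).1] at this
      exact this.continuousAt
    have huc' : ∀ a, ∀ z ∈ closedBall (e x) ρ, ContinuousAt (fun z => u i e' (e' (e.symm z)) a) z := by
      intro a z hz
      have := huan i e' (e.symm z) (hat z hz).2.1 (hat z hz).2.2 a
      exact this.continuousAt.comp (f := fun z => e' (e.symm z)) (hTc z hz)
    have hgc : ∀ n a, ∀ z ∈ closedBall (e x) ρ, ContinuousAt (fun z => g n i e z a) z :=
      fun n a z hz => (cont_sec (hg n).smooth hx.1 i a (hd1 hz)).continuousAt
    have hgc' : ∀ n a, ∀ z ∈ closedBall (e x) ρ,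
        ContinuousAt (fun z => g n i e' (e' (e.symm z)) a) z := by
      intro n a z hz
      have := (hg n).smooth i e' (e.symm z) (hat z hz).2.1 (hat z hz).2.2 a
      exact this.continuousAt.comp (f := fun z => e' (e.symm z)) (hTc z hz)
    funext a
    choose M hM using fun b => (isCompact_closedBall (e x) ρ).exists_bound_of_continuousOn
      (f := fun z => Lam e e' (e.symm z) a b) fun z hz => (hLc a b z hz).continuousWithinAt
    have hMle : ∀ b, ∀ z ∈ closedBall (e x) ρ, ‖Lam e e' (e.symm z) a b‖ₑ ≤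
        ∑ b, ENNReal.ofReal (M b) := by
      intro b z hz
      refine le_trans ?_ (Finset.single_le_sum (f := fun b => ENNReal.ofReal (M b))
        (fun _ _ => zero_le) (Finset.mem_univ b))
      rw [← ofReal_norm]
      exact ENNReal.ofReal_le_ofReal (hM b z hz)
    have h3 := tendsto_comb (β := A) (l := (l : Filter α)) (S := closedBall (e x) ρ)
      measurableSet_closedBall (h := fun n b z => g n i e' (e' (e.symm z)) b)
      (H := fun b z => u i e' (e' (e.symm z)) b)
      (fun n b => aemeas_of_cont measurableSet_closedBall fun z hz =>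
        ((hgc' n b z hz).sub (huc' b z hz)).continuousWithinAt)
      (c := fun b z => Lam e e' (e.symm z) a b) (C := ∑ b, ENNReal.ofReal (M b))
      (by simp) hMle ?_
    · have h4 := eq_of_lim (l := (l : Filter α)) (S := closedBall (e x) ρ)
        (closedBall_mem_nhds (e x) hρ0) (f := fun n z => g n i e z a) (G := fun z => u i e z a)
        (H := fun z => ∑ b, Lam e e' (e.symm z) a b * u i e' (e' (e.symm z)) b)
        (fun n => aemeas_of_cont measurableSet_closedBall fun z hz =>
          ((hgc n a z hz).sub (huc a z hz)).continuousWithinAt)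
        (huc a _ (mem_closedBall_self hρ0.le))
        (tendsto_finsetSum _ fun b _ => (hLc a b _ (mem_closedBall_self hρ0.le)).mul
          (huc' b _ (mem_closedBall_self hρ0.le)))
        ((hUc i e x hx hi).one (isCompact_closedBall _ _).measure_ne_top hs1 a) ?_
      · simp only [e.left_inv hx.2] at h4
        rw [h4]; rfl
      · refine h3.congr fun n => setLIntegral_congr_fun measurableSet_closedBall fun z hz => ?_
        have h5 := (hg n).chV i e e' (e.symm z) (hat z hz).1 (hat z hz).2.1 (hat z hz).2.2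
        rw [e.right_inv (hd1 hz).1] at h5
        have h6 : g n i e z a = ∑ b, Lam e e' (e.symm z) a b * g n i e' (e' (e.symm z)) b := by
          rw [h5]; rfl
        show ‖(∑ b, Lam e e' (e.symm z) a b * g n i e' (e' (e.symm z)) b) - _‖ₑ ^ 2 =
          ‖g n i e z a - _‖ₑ ^ 2
        rw [h6]
    · intro b
      have h7 := (hUc i e' x hx' hi).one (isCompact_closedBall _ _).measure_ne_top subset_rfl b
      have h8 := ENNReal.Tendsto.const_mul (a := C) h7 (Or.inr hC)
      rw [mul_zero] at h8
      refine tendsto_of_tendsto_of_tendsto_of_le_of_le tendsto_const_nhds h8 (fun _ => zero_le)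
        fun n => ?_
      exact hint (fun z => ‖g n i e' z b - u i e' z b‖ₑ ^ 2)

end Vale.Agent.P301.H897
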