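import Vale.Agent.P301.H897.Est
import Mathlib.Analysis.Calculus.ContDiff.Convolution
import Mathlib.Analysis.Calculus.BumpFunction.FiniteDimension
import Mathlib.Analysis.Normed.Module.WeakDual
import Mathlib.Analysis.InnerProductSpace.Dual
import Mathlib.MeasureTheory.Function.L2Space

/-!
# Weak limits in `L²` along an ultrafilter and their averages
-/

open scoped ContDiff Topology ComplexConjugate ENNReal InnerProductSpace Convolution
open MeasureTheory Set Filter Metric

noncomputable section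

namespace Vale.Agent.P301.H897

open Vale.Agent.P272.K Vale.Agent.P272.K.INT

variable {d : ℕ} {α : Type*}

/-- bounded families in a Hilbert space converge weakly along an ultrafilter -/
lemma exists_weak_lim {H : Type*} [NormedAddCommGroup H] [InnerProductSpace ℂ H] [CompleteSpace H]
    (l : Ultrafilter α) (x : α → H) (A : ℝ) (hx : ∀ᶠ n in (l : Filter α), ‖x n‖ ≤ A) :
    ∃ y : H, ∀ φ : H, Tendsto (fun n => (inner ℂ (x n) φ : ℂ)) l (𝓝 (inner ℂ y φ)) := by
  have hK := WeakDual.isCompact_closedBall (𝕜 := ℂ) (E := H) (0 : StrongDual ℂ H) A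
  have h1 : ↑(l.map fun n => StrongDual.toWeakDual (InnerProductSpace.toDual ℂ H (x n))) ≤
      𝓟 (WeakDual.toStrongDual ⁻¹' closedBall (0 : StrongDual ℂ H) A) := by
    rw [le_principal_iff, Ultrafilter.mem_coe, Ultrafilter.mem_map]
    refine mem_of_superset hx fun n hn => ?_
    simpa using hn
  obtain ⟨y', -, hy'⟩ := isCompact_iff_ultrafilter_le_nhds.1 hK _ h1
  refine ⟨(InnerProductSpace.toDual ℂ H).symm (WeakDual.toStrongDual y'), fun φ => ?_⟩
  have h2 : Tendsto (fun n => StrongDual.toWeakDual (InnerProductSpace.toDual ℂ H (x n))) l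
      (𝓝 y') := hy'
  have h3 := ((WeakDual.eval_continuous φ).tendsto y').comp h2
  refine (h3.congr fun n => ?_).trans_eq ?_
  · simp
  · simp [InnerProductSpace.toDual_symm_apply]

lemma memLp_of_continuous {K : Set (Cm d)} (hK : IsCompact K) {f : Cm d → ℂ} (hf : Continuous f) :
    MemLp f 2 (volume.restrict K) := by
  obtain ⟨C, hC⟩ := hK.exists_bound_of_continuousOn hf.continuousOn
  have : IsFiniteMeasure (volume.restrict K : Measure (Cm d)) := ⟨by
    rw [Measure.restrict_apply_univ]; exact hK.measure_lt_top⟩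
  exact MemLp.of_bound hf.aestronglyMeasurable C
    (ae_restrict_of_forall_mem hK.measurableSet hC)

/-- weak limits in `L²(K)` -/
lemma exists_weak_L2 {K : Set (Cm d)} (hK : IsCompact K) (l : Ultrafilter α) (F : α → Cm d → ℂ)
    (hF : ∀ n, AEStronglyMeasurable (F n) (volume.restrict K)) (A : ℝ≥0∞) (hAt : A ≠ ⊤)
    (hA : ∀ᶠ n in (l : Filter α), ∫⁻ z in K, ‖F n z‖ₑ ^ 2 ≤ A) :
    ∃ G : Cm d → ℂ, MemLp G 2 (volume.restrict K) ∧ ∀ φ : Cm d → ℂ, Continuous φ →
      Tendsto (fun n => ∫ z in K, φ z * F n z) l (𝓝 (∫ z in K, φ z * G z)) := by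
  classical
  have hmem : ∀ n, (∫⁻ z in K, ‖F n z‖ₑ ^ 2 ≤ A) → MemLp (F n) 2 (volume.restrict K) := by
    intro n hn
    refine ⟨hF n, ?_⟩
    rw [eLpNorm_lt_top_iff_lintegral_rpow_enorm_lt_top two_ne_zero ENNReal.ofNat_ne_top]
    simp only [ENNReal.toReal_ofNat, ENNReal.rpow_ofNat]
    exact hn.trans_lt hAt.lt_top
  set x : α → Lp ℂ 2 (volume.restrict K) := fun n =>
    if h : MemLp (F n) 2 (volume.restrict K) then h.toLp (F n) else 0 with hx
  have hxn : ∀ᶠ n in (l : Filter α), ‖x n‖ ≤ (A ^ (1 / (2 : ℝ))).toReal := by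
    filter_upwards [hA] with n hn
    simp only [hx, dif_pos (hmem n hn), Lp.norm_toLp]
    refine ENNReal.toReal_mono (by simp [hAt]) ?_
    rw [eLpNorm_eq_lintegral_rpow_enorm_toReal two_ne_zero ENNReal.ofNat_ne_top]
    simp only [ENNReal.toReal_ofNat, ENNReal.rpow_ofNat]
    gcongr
  obtain ⟨y, hy⟩ := exists_weak_lim l x _ hxn
  refine ⟨y, Lp.memLp y, fun φ hφ => ?_⟩
  have hφm : MemLp (fun z => conj (φ z)) 2 (volume.restrict K) :=
    memLp_of_continuous hK (Complex.continuous_conj.comp hφ)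
  have key : ∀ (v : Lp ℂ 2 (volume.restrict K)) (f : Cm d → ℂ), v =ᵐ[volume.restrict K] f →
      conj (inner ℂ v (hφm.toLp _) : ℂ) = ∫ z in K, φ z * f z := by
    intro v f hv
    rw [L2.inner_def, ← integral_conj]
    refine integral_congr_ae ?_
    filter_upwards [hv, hφm.coeFn_toLp] with z hz1 hz2
    rw [hz1, hz2, RCLike.inner_apply]
    simp
  have h1 := (Complex.continuous_conj.tendsto _).comp (hy (hφm.toLp _))
  have h2 : conj (inner ℂ y (hφm.toLp _) : ℂ) = ∫ z in K, φ z * y z := key y y (ae_eq_refl _)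
  rw [h2] at h1
  refine h1.congr' ?_
  filter_upwards [hA] with n hn
  refine key (x n) (F n) ?_
  simp only [hx, dif_pos (hmem n hn)]
  exact (hmem n hn).coeFn_toLp

end Vale.Agent.P301.H897
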